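import Vale.Agent.P042.WA.W3.Base
import Mathlib.FieldTheory.IsAlgClosed.Basic
set_option autoImplicit false

namespace Vale.Agent.P042.WA

open Polynomial IntermediateField

/-- the ambient differential field with a degree at infinity. `Dg n f` means `deg f ≤ n`. -/
structure Amb (𝕜 Ω : Type) [Field 𝕜] [Field Ω] [Algebra 𝕜 Ω] (p k : ℕ)
    (D : Derivation 𝕜 Ω Ω) (t : Ω) (Dg : ℤ → Ω → Prop) : Prop where
  Dt : D t = 1
  zero : ∀ n, Dg n 0
  mono : ∀ {n m : ℤ} {f : Ω}, n ≤ m → Dg n f → Dg m f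
  add : ∀ {n : ℤ} {f g : Ω}, Dg n f → Dg n g → Dg n (f + g)
  mul : ∀ {n m : ℤ} {f g : Ω}, Dg n f → Dg m g → Dg (n + m) (f * g)
  const : ∀ c : 𝕜, Dg 0 (algebraMap 𝕜 Ω c)
  dgt : Dg k t
  der : ∀ {n : ℤ} {f : Ω}, Dg n f → Dg (n - k) (D f)
  lead : ∀ {f : Ω}, Dg 0 f → ∃ c : 𝕜, Dg (-1) (f - algebraMap 𝕜 Ω c)
  ker : ∀ {n : ℤ} {f : Ω}, n < p → D f = 0 → Dg n f → Dg 0 f
  poly : ∀ (P : 𝕜[X]) (n : ℤ), P ≠ 0 → Dg n (aeval t P) → (k : ℤ) * P.natDegree ≤ n

section

variable {𝕜 Ω : Type} [Field 𝕜] [Field Ω] [Algebra 𝕜 Ω] {p k : ℕ}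
    {D : Derivation 𝕜 Ω Ω} {t : Ω} {Dg : ℤ → Ω → Prop}

lemma Amb.neg (hA : Amb 𝕜 Ω p k D t Dg) {n : ℤ} {f : Ω} (hf : Dg n f) : Dg n (-f) := by
  have h1 := hA.mul (hA.const (-1)) hf
  simpa using h1

lemma Amb.sub (hA : Amb 𝕜 Ω p k D t Dg) {n : ℤ} {f g : Ω} (hf : Dg n f) (hg : Dg n g) :
    Dg n (f - g) := by
  rw [sub_eq_add_neg]
  exact hA.add hf (hA.neg hg)

lemma Amb.pow (hA : Amb 𝕜 Ω p k D t Dg) {n : ℤ} {f : Ω} (hf : Dg n f) (i : ℕ) :
    Dg (i * n) (f ^ i) := by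
  induction i with
  | zero =>
    have := hA.const 1
    simpa using this
  | succ i ih =>
    rw [pow_succ]
    have := hA.mul ih hf
    push_cast
    rwa [add_mul, one_mul]

lemma Amb.tr (hA : Amb 𝕜 Ω p k D t Dg) : Transcendental 𝕜 t := by
  rw [transcendental_iff]
  intro P hP
  by_contra h0
  have h1 := hA.poly P (-1) h0 (by rw [hP]; exact hA.zero _)
  have : (0 : ℤ) ≤ (k : ℤ) * P.natDegree := by positivity
  omega

/-- degree of a polynomial in an element of degree `≤ 1` -/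
lemma Amb.dg_aeval (hA : Amb 𝕜 Ω p k D t Dg) {a : Ω} {m : ℤ} (hm : 0 ≤ m) (ha : Dg m a) (P : 𝕜[X]) :
    Dg (P.natDegree * m) (aeval a P) := by
  rw [Polynomial.aeval_eq_sum_range]
  have h1 : ∀ i ∈ Finset.range (P.natDegree + 1), Dg (P.natDegree * m) (P.coeff i • a ^ i) := by
    intro i hi
    rw [Algebra.smul_def]
    have h2 := hA.mul (hA.const (P.coeff i)) (hA.pow ha i)
    refine hA.mono ?_ h2
    rw [zero_add]
    have : (i : ℤ) ≤ P.natDegree := by
      have := Finset.mem_range.1 hi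
      omega
    exact mul_le_mul_of_nonneg_right this hm
  generalize Finset.range (P.natDegree + 1) = s at h1
  classical
  induction s using Finset.induction_on with
  | empty => simpa using hA.zero _
  | insert j s hj ih =>
    rw [Finset.sum_insert hj]
    exact hA.add (h1 j (Finset.mem_insert_self _ _)) (ih fun i hi => h1 i (Finset.mem_insert_of_mem hi))

lemma D_aeval (D : Derivation 𝕜 Ω Ω) (a : Ω) (P : 𝕜[X]) :
    D (Polynomial.aeval a P) = Polynomial.aeval a P.derivative * D a := by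
  have := D.map_aeval P a
  rw [this, smul_eq_mul]

end

/-- `χ(h(X)) = P(X) h'(X)` with `χ` having its roots at the critical values -/
lemma exists_chi {𝕜 : Type} [Field 𝕜] [IsAlgClosed 𝕜] (h : 𝕜[X]) (hh : h.derivative ≠ 0) :
    ∃ χ P : 𝕜[X], χ ≠ 0 ∧ χ.comp h = P * h.derivative ∧
      ∀ c, χ.eval c = 0 → ∃ z, h.derivative.eval z = 0 ∧ h.eval z = c := by
  classical
  set m := h.derivative.roots with hm
  have hs : h.derivative = C h.derivative.leadingCoeff * (m.map fun a => X - C a).prod :=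
    (IsAlgClosed.splits h.derivative).eq_prod_roots
  have key : ∀ s : Multiset 𝕜, (s.map fun a => X - C a).prod ∣
      ((s.map fun a => X - C (h.eval a)).prod).comp h := by
    intro s
    induction s using Multiset.induction_on with
    | empty => simp
    | cons a s ih =>
      rw [Multiset.map_cons, Multiset.prod_cons, Multiset.map_cons, Multiset.prod_cons, mul_comp]
      apply mul_dvd_mul _ ih
      rw [sub_comp, X_comp, C_comp]
      exact X_sub_C_dvd_sub_C_eval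
  refine ⟨(m.map fun a => X - C (h.eval a)).prod, ?_⟩
  obtain ⟨P, hP⟩ := key m
  refine ⟨P * C (h.derivative.leadingCoeff)⁻¹, ?_, ?_, ?_⟩
  · apply Multiset.prod_ne_zero
    intro h0
    obtain ⟨a, _, ha⟩ := Multiset.mem_map.1 h0
    exact X_sub_C_ne_zero _ ha
  · have hl : h.derivative.leadingCoeff ≠ 0 := leadingCoeff_ne_zero.2 hh
    rw [hP]
    have : (C (h.derivative.leadingCoeff)⁻¹ * C h.derivative.leadingCoeff : 𝕜[X]) = 1 := by
      rw [← C_mul, inv_mul_cancel₀ hl, C_1]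
    calc (m.map fun a => X - C a).prod * P
        = P * (C (h.derivative.leadingCoeff)⁻¹ * C h.derivative.leadingCoeff) *
          (m.map fun a => X - C a).prod := by rw [this]; ring
      _ = P * C (h.derivative.leadingCoeff)⁻¹ *
          (C h.derivative.leadingCoeff * (m.map fun a => X - C a).prod) := by ring
      _ = P * C (h.derivative.leadingCoeff)⁻¹ * h.derivative := by rw [← hs]
  · intro c hc
    rw [eval_multiset_prod, Multiset.map_map] at hc
    have := Multiset.prod_eq_zero_iff.1 hc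
    obtain ⟨a, ha, ha0⟩ := Multiset.mem_map.1 this
    refine ⟨a, (mem_roots'.1 ha).2, ?_⟩
    simp only [Function.comp_apply, eval_sub, eval_X, eval_C] at ha0
    exact (sub_eq_zero.1 ha0).symm

/-- an element of the ring generated by integral elements and `1/d` becomes integral after
multiplication by a power of `d`. -/
lemma denom_intg {𝕜 Ω : Type} [Field 𝕜] [Field Ω] [Algebra 𝕜 Ω] {t : Ω} (S : Set Ω) (d : Ω)
    (hd : Intg 𝕜 t d) (hd0 : d ≠ 0) (hS : ∀ s ∈ S, Intg 𝕜 t s) (f : Ω)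
    (hf : f ∈ Algebra.adjoin 𝕜 (insert d⁻¹ S)) : ∃ c : ℕ, Intg 𝕜 t (d ^ c * f) := by
  induction hf using Algebra.adjoin_induction with
  | mem x hx =>
    rcases Set.mem_insert_iff.1 hx with rfl | hx
    · exact ⟨1, by rw [pow_one, mul_inv_cancel₀ hd0]; exact Intg.one t⟩
    · exact ⟨0, by rw [pow_zero, one_mul]; exact hS x hx⟩
  | algebraMap r => exact ⟨0, by rw [pow_zero, one_mul]; exact Intg.const t r⟩
  | add x y _ _ hx hy =>
    obtain ⟨a, ha⟩ := hx
    obtain ⟨b, hb⟩ := hy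
    refine ⟨a + b, ?_⟩
    have : d ^ (a + b) * (x + y) = d ^ b * (d ^ a * x) + d ^ a * (d ^ b * y) := by ring
    rw [this]
    exact ((hd.pow b).mul ha).add ((hd.pow a).mul hb)
  | mul x y _ _ hx hy =>
    obtain ⟨a, ha⟩ := hx
    obtain ⟨b, hb⟩ := hy
    refine ⟨a + b, ?_⟩
    have : d ^ (a + b) * (x * y) = (d ^ a * x) * (d ^ b * y) := by ring
    rw [this]
    exact ha.mul hb

/-- a subalgebra generated by `S` is closed under `D` if `D S` is in it -/
lemma D_adjoin {𝕜 Ω : Type} [Field 𝕜] [Field Ω] [Algebra 𝕜 Ω] (D : Derivation 𝕜 Ω Ω) (S : Set Ω)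
    (hS : ∀ s ∈ S, D s ∈ Algebra.adjoin 𝕜 S) (f : Ω) (hf : f ∈ Algebra.adjoin 𝕜 S) :
    D f ∈ Algebra.adjoin 𝕜 S := by
  induction hf using Algebra.adjoin_induction with
  | mem x hx => exact hS x hx
  | algebraMap r => rw [D.map_algebraMap]; exact Subalgebra.zero_mem _
  | add x y _ _ hx hy => rw [map_add]; exact Subalgebra.add_mem _ hx hy
  | mul x y hx' hy' hx hy =>
    rw [D.leibniz, smul_eq_mul, smul_eq_mul]
    exact Subalgebra.add_mem _ (Subalgebra.mul_mem _ hx' hy) (Subalgebra.mul_mem _ hy' hx)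

lemma intg_of_coprime {𝕜 Ω : Type} [Field 𝕜] [Field Ω] [Algebra 𝕜 Ω] {t : Ω} {P Q : 𝕜[X]}
    (hPQ : IsCoprime P Q) {f : Ω} {a b : ℕ} (ha : Intg 𝕜 t ((aeval t P) ^ a * f))
    (hb : Intg 𝕜 t ((aeval t Q) ^ b * f)) : Intg 𝕜 t f := by
  obtain ⟨u, v, huv⟩ := hPQ.pow (m := a) (n := b)
  have h1 : f = aeval t u * ((aeval t P) ^ a * f) + aeval t v * ((aeval t Q) ^ b * f) := by
    have h2 := congrArg (aeval t) huv
    simp only [map_add, map_mul, map_pow, map_one] at h2
    linear_combination (-f) * h2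
  rw [h1]
  exact ((Intg.poly t u).mul ha).add ((Intg.poly t v).mul hb)

end Vale.Agent.P042.WA
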