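import Vale.Agent.P042.WA.W3.Inj
set_option autoImplicit false

namespace Vale.Agent.P042.WA

open Polynomial IntermediateField

/-- existence of the ambient field (Laurent series at infinity) -/
def AmbientProp : Prop :=
  ∀ (p k : ℕ) (𝕜 : Type) [Field 𝕜] [IsAlgClosed 𝕜] [CharP 𝕜 p] (_ : (k : 𝕜) ≠ 0) (h : 𝕜[X])
    (_ : h.natDegree = k), ∃ (Ω : Type) (_ : Field Ω) (_ : Algebra 𝕜 Ω) (D : Derivation 𝕜 Ω Ω)
    (t : Ω) (Dg : ℤ → Ω → Prop), Amb 𝕜 Ω p k D t Dg ∧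
    ∀ ε c : 𝕜, ε ≠ 0 → (h.map (algebraMap 𝕜 Ω) -
      C (algebraMap 𝕜 Ω ε * t + algebraMap 𝕜 Ω c)).Splits ∧
      ∀ α, aeval α h = algebraMap 𝕜 Ω ε * t + algebraMap 𝕜 Ω c → Dg 1 α

lemma exists_root_F {𝕜 Ω : Type} [Field 𝕜] [Field Ω] [Algebra 𝕜 Ω] {h : 𝕜[X]} {F : 𝕜[X][X]}
    {d : ℕ} (hF : GoodFac h F d) (hdeg : h.natDegree ≠ 0) {x a : Ω} (hx : aeval x h = a)
    (hspl : (h.map (algebraMap 𝕜 Ω) - C (-a)).Splits) : ∃ z, ev2 x z F = 0 := by
  set i : 𝕜[X] →+* Ω := ((aeval x : 𝕜[X] →ₐ[𝕜] Ω) : 𝕜[X] →+* Ω) with hi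
  have h1 : (HH h).map i = h.map (algebraMap 𝕜 Ω) - C (-a) := by
    have h2 : i.comp C = algebraMap 𝕜 Ω := by
      ext c
      simp [hi]
    have h3 : i h = a := hx
    rw [HH, Polynomial.map_add, map_C, Polynomial.map_map, h2, h3, C_neg]
    ring
  have h2 : F.map i ∣ h.map (algebraMap 𝕜 Ω) - C (-a) := by
    rw [← h1]
    exact Polynomial.map_dvd i hF.dvd
  have h3 : h.map (algebraMap 𝕜 Ω) - C (-a) ≠ 0 := by
    intro h4
    have h5 := congrArg natDegree h4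
    rw [natDegree_sub_C, natDegree_map, natDegree_zero] at h5
    exact hdeg h5
  have h4 : (F.map i).Splits := Splits.of_dvd hspl h3 h2
  have h5 : (F.map i).degree ≠ 0 := by
    rw [hF.monic.degree_map, degree_eq_natDegree hF.monic.ne_zero, hF.deg]
    have := hF.pos
    exact_mod_cast (by omega : d ≠ 0)
  obtain ⟨z, hz⟩ := h4.exists_eval_eq_zero h5
  refine ⟨z, ?_⟩
  rw [ev2, ← eval_map]
  exact hz

theorem w3_of (hamb : AmbientProp) : W3 := by
  intro k hk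
  refine ⟨k * k + 3, ?_⟩
  intro p hp hpP 𝕜 _ _ _ h F d s hdeg hF hirr hs
  have hkk : k ≤ k * k := Nat.le_mul_self k
  have hcast : ∀ m : ℕ, 0 < m → m < p → (m : 𝕜) ≠ 0 := by
    intro m h0 h1 h2
    rw [CharP.cast_eq_zero_iff 𝕜 p] at h2
    exact absurd (Nat.le_of_dvd h0 h2) (by omega)
  have hk0 : (k : 𝕜) ≠ 0 := hcast k (by omega) (by omega)
  have hdeg0 : h.natDegree ≠ 0 := by omega
  have hHne : (HH h).natDegree = k := by
    rw [HH, natDegree_C_add, natDegree_map_eq_of_injective C_injective, hdeg]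
  have hdk : d ≤ k := by
    have h1 : HH h ≠ 0 := by
      intro h0
      rw [h0, natDegree_zero] at hHne
      omega
    have := natDegree_le_of_dvd hF.dvd h1
    rwa [hF.deg, hHne] at this
  have hd : (d : 𝕜) ≠ 0 := hcast d hF.pos (by omega)
  have h2 : (2 : 𝕜) ≠ 0 := by
    have := hcast 2 (by omega) (by omega)
    exact_mod_cast this
  have hlc : h.leadingCoeff ≠ 0 := by
    intro h0
    rw [leadingCoeff_eq_zero] at h0
    rw [h0, natDegree_zero] at hdeg0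
    exact hdeg0 rfl
  have hh : h.derivative ≠ 0 := by
    intro h0
    have h1 : h.derivative.coeff (k - 1) = 0 := by rw [h0, coeff_zero]
    rw [coeff_derivative, Nat.sub_add_cancel (by omega)] at h1
    have h3 : h.coeff k = h.leadingCoeff := by rw [← hdeg]; rfl
    have h4 : ((k - 1 : ℕ) : 𝕜) + 1 = (k : 𝕜) := by
      have : ((k - 1 : ℕ) : 𝕜) + 1 = ((k - 1 + 1 : ℕ) : 𝕜) := by push_cast; ring
      rw [this, Nat.sub_add_cancel (by omega)]
    rw [h3, h4] at h1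
    exact (mul_ne_zero hlc hk0) h1
  obtain ⟨Ω, iF, iA, D, t, Dg, hA, hroots⟩ := hamb p k 𝕜 hk0 h hdeg
  -- splitting of the four polynomials
  have e1 : algebraMap 𝕜 Ω 1 * t + algebraMap 𝕜 Ω 0 = t := by
    rw [map_one, map_zero, one_mul, add_zero]
  have e2 : algebraMap 𝕜 Ω (-1) * t + algebraMap 𝕜 Ω 0 = -t := by
    rw [map_neg, map_one, map_zero]; ring
  have e3 : algebraMap 𝕜 Ω 1 * t + algebraMap 𝕜 Ω s =
      t + algebraMap 𝕜 Ω s := by
    rw [map_one, one_mul]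
  have e4 : algebraMap 𝕜 Ω (-1) * t + algebraMap 𝕜 Ω (-s) =
      -(t + algebraMap 𝕜 Ω s) := by
    rw [map_neg, map_neg, map_one]; ring
  have s1 := hroots 1 0 one_ne_zero
  have s2 := hroots (-1) 0 (neg_ne_zero.2 one_ne_zero)
  have s3 := hroots 1 s one_ne_zero
  have s4 := hroots (-1) (-s) (neg_ne_zero.2 one_ne_zero)
  rw [e1] at s1
  rw [e2] at s2
  rw [e3] at s3
  rw [e4] at s4
  have hexr : ∀ a : Ω, (h.map (algebraMap 𝕜 Ω) - C a).Splits →
      ∃ x, aeval x h = a := by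
    intro a ha
    obtain ⟨x, hx⟩ := ha.exists_eval_eq_zero (by
      rw [degree_sub_C (by rw [degree_map]; exact natDegree_pos_iff_degree_pos.1 (by omega)),
        degree_map]
      intro h0
      exact hdeg0 (natDegree_eq_of_degree_eq_some h0))
    refine ⟨x, ?_⟩
    rw [eval_sub, eval_C, eval_map_algebraMap, sub_eq_zero] at hx
    exact hx
  obtain ⟨x, hx⟩ := hexr _ s1.1
  obtain ⟨x', hx'⟩ := hexr _ s3.1
  obtain ⟨z, hz⟩ := exists_root_F hF hdeg0 hx s2.1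
  obtain ⟨z', hz'⟩ := exists_root_F hF hdeg0 hx' s4.1
  refine domain_of_amb hA hF hd hirr hh hdeg (by omega) ?_ h2 hs hx hz hx' hz' ?_ ?_
  · calc k * d ≤ k * k := Nat.mul_le_mul_left _ hdk
      _ < p := by omega
  · intro a ha
    rcases ha with rfl | rfl
    · exact s3.1
    · exact s4.1
  · intro α hα
    rcases hα with hα | hα
    · exact s3.2 α hα
    · exact s4.2 α hα

end Vale.Agent.P042.WA
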