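import Mathlib.RingTheory.PowerSeries.Inverse
import Mathlib.RingTheory.Henselian
set_option autoImplicit false

namespace Vale.Agent.P042.WA

open Polynomial

section

variable {𝕜 : Type} [Field 𝕜]

lemma ps_complete : IsAdicComplete (Ideal.span {(PowerSeries.X : PowerSeries 𝕜)})
    (PowerSeries 𝕜) := by
  have hmem : ∀ (n : ℕ) (φ : PowerSeries 𝕜),
      φ ∈ ((Ideal.span {(PowerSeries.X : PowerSeries 𝕜)}) ^ n • ⊤ : Submodule (PowerSeries 𝕜)
        (PowerSeries 𝕜)) ↔ ∀ m < n, PowerSeries.coeff m φ = 0 := by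
    intro n φ
    rw [smul_eq_mul, Ideal.mul_top, Ideal.span_singleton_pow, Ideal.mem_span_singleton,
      PowerSeries.X_pow_dvd_iff]
  refine { haus' := ?_, prec' := ?_ }
  · intro φ hφ
    ext n
    have h1 := hφ (n + 1)
    rw [SModEq.zero, hmem] at h1
    rw [h1 n (Nat.lt_succ_self n)]
    simp
  · intro f hf
    refine ⟨PowerSeries.mk fun n => PowerSeries.coeff n (f (n + 1)), ?_⟩
    intro n
    rw [SModEq.sub_mem, hmem]
    intro m hm
    rw [map_sub, PowerSeries.coeff_mk]
    have h1 := hf (show m + 1 ≤ n by omega)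
    rw [SModEq.sub_mem, hmem] at h1
    have h2 := h1 m (Nat.lt_succ_self m)
    rw [map_sub] at h2
    linear_combination -h2

/-- Hensel for power series: simple roots of the constant reduction lift. -/
lemma ps_hensel (g : (PowerSeries 𝕜)[X]) (hg : g.Monic) (ζ : 𝕜)
    (h0 : (g.map PowerSeries.constantCoeff).eval ζ = 0)
    (h1 : (g.map PowerSeries.constantCoeff).derivative.eval ζ ≠ 0) :
    ∃ y : PowerSeries 𝕜, g.eval y = 0 ∧ PowerSeries.constantCoeff y = ζ := by
  have := ps_complete (𝕜 := 𝕜)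
  have hH : HenselianRing (PowerSeries 𝕜) (Ideal.span {(PowerSeries.X : PowerSeries 𝕜)}) :=
    inferInstance
  have hev : ∀ q : (PowerSeries 𝕜)[X], PowerSeries.constantCoeff (q.eval (PowerSeries.C ζ)) =
      (q.map PowerSeries.constantCoeff).eval ζ := by
    intro q
    rw [eval_map, ← Polynomial.eval₂_hom]
    simp
  obtain ⟨y, hy, hy'⟩ := hH.is_henselian g hg (PowerSeries.C ζ) (by
    rw [Ideal.mem_span_singleton, PowerSeries.X_dvd_iff, hev, h0]) (by
    apply IsUnit.map
    rw [PowerSeries.isUnit_iff_constantCoeff, hev, ← derivative_map]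
    exact isUnit_iff_ne_zero.2 h1)
  refine ⟨y, hy, ?_⟩
  rw [Ideal.mem_span_singleton, PowerSeries.X_dvd_iff, map_sub, PowerSeries.constantCoeff_C,
    sub_eq_zero] at hy'
  exact hy'

end

end Vale.Agent.P042.WA
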