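import Vale.Agent.P042.WA.W3.Laurent
import Vale.Agent.P042.WA.W3.PSHensel
import Vale.Agent.P042.WA.W3.Final
set_option autoImplicit false

namespace Vale.Agent.P042.WA

open Polynomial

section

variable {𝕜 : Type} [Field 𝕜]

/-- power series in `u = 1/x` inside the Laurent series -/
noncomputable def ips (𝕜 : Type) [Field 𝕜] : PowerSeries 𝕜 →+* Om 𝕜 :=
  HahnSeries.ofPowerSeries ℤ 𝕜

lemma ips_C (c : 𝕜) : ips 𝕜 (PowerSeries.C c) = algebraMap 𝕜 (Om 𝕜) c :=
  HahnSeries.ofPowerSeries_C c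

lemma ips_X : ips 𝕜 PowerSeries.X = sg 1 1 := HahnSeries.ofPowerSeries_X

lemma cf_ips_zero (y : PowerSeries 𝕜) : cf (ips 𝕜 y) 0 = PowerSeries.constantCoeff y := by
  have := HahnSeries.ofPowerSeries_apply_coeff (Γ := ℤ) y 0
  rw [PowerSeries.coeff_zero_eq_constantCoeff_apply] at this
  exact this

/-- the auxiliary polynomial over the power series -/
noncomputable def gq (h : 𝕜[X]) (k : ℕ) (ε c : 𝕜) : (PowerSeries 𝕜)[X] :=
  (∑ i ∈ Finset.range k, C (PowerSeries.C (h.leadingCoeff⁻¹ * h.coeff i) *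
    PowerSeries.X ^ (k - i)) * X ^ i) -
    C (PowerSeries.C (h.leadingCoeff⁻¹ * c) * PowerSeries.X ^ k +
      PowerSeries.C (h.leadingCoeff⁻¹ * ε))

lemma gq_degree (h : 𝕜[X]) {k : ℕ} (hk : 1 ≤ k) (ε c : 𝕜) : (gq h k ε c).degree < k := by
  rw [degree_lt_iff_coeff_zero]
  intro m hm
  rw [gq, coeff_sub, finsetSum_coeff, coeff_C, if_neg (by omega), sub_zero]
  apply Finset.sum_eq_zero
  intro i hi
  have := Finset.mem_range.1 hi
  rw [coeff_C_mul_X_pow, if_neg (by omega)]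

lemma gq_map (h : 𝕜[X]) {k : ℕ} (hk : 1 ≤ k) (ε c : 𝕜) :
    ((X ^ k + gq h k ε c : (PowerSeries 𝕜)[X])).map PowerSeries.constantCoeff =
      X ^ k - C (h.leadingCoeff⁻¹ * ε) := by
  rw [gq, Polynomial.map_add, Polynomial.map_sub, Polynomial.map_pow, map_X, Polynomial.map_sum,
    Finset.sum_eq_zero, zero_sub, sub_eq_add_neg, map_C]
  · simp only [map_add, map_mul, PowerSeries.constantCoeff_C, map_pow,
      PowerSeries.constantCoeff_X]
    rw [C_0, zero_pow (by omega), mul_zero, zero_add]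
  · intro i hi
    have := Finset.mem_range.1 hi
    rw [Polynomial.map_mul, map_C, map_mul, map_pow, PowerSeries.constantCoeff_X,
      zero_pow (by omega), mul_zero, C_0, zero_mul]

lemma exists_root_Om {k : ℕ} (hk0 : (k : 𝕜) ≠ 0) {h : 𝕜[X]} (hdeg : h.natDegree = k) {ε c : 𝕜}
    (hε : ε ≠ 0) {ζ : 𝕜} (hζ : ζ ^ k = h.leadingCoeff⁻¹ * ε) :
    ∃ α : Om 𝕜, aeval α h = algebraMap 𝕜 (Om 𝕜) ε * sg (-k) 1 + algebraMap 𝕜 (Om 𝕜) c ∧
      cf α (-1) = ζ := by
  have hk : 1 ≤ k := by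
    rcases Nat.eq_zero_or_pos k with h0 | h0
    · rw [h0] at hk0; simp at hk0
    · exact h0
  have hlc : h.leadingCoeff ≠ 0 := by
    intro h0
    rw [leadingCoeff_eq_zero] at h0
    rw [h0, natDegree_zero] at hdeg
    omega
  have hζ0 : ζ ≠ 0 := by
    intro h0
    rw [h0, zero_pow (by omega)] at hζ
    exact (mul_ne_zero (inv_ne_zero hlc) hε) hζ.symm
  obtain ⟨y, hy, hy0⟩ := ps_hensel (X ^ k + gq h k ε c) (monic_X_pow_add (gq_degree h hk ε c)) ζ
    (by rw [gq_map h hk, eval_sub, eval_pow, eval_X, eval_C, hζ, sub_self])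
    (by
      rw [gq_map h hk, derivative_sub, derivative_C, sub_zero, derivative_X_pow, eval_mul,
        eval_pow, eval_X, eval_C]
      exact mul_ne_zero hk0 (pow_ne_zero _ hζ0))
  set Y := ips 𝕜 y with hY
  set U : Om 𝕜 := sg 1 1 with hU
  set V : Om 𝕜 := sg (-1) 1 with hV
  have hUV : U * V = 1 := by
    rw [hU, hV, sg_mul_sg, ← sg_one]
    simp
  have h1 : (∑ i ∈ Finset.range k, algebraMap 𝕜 (Om 𝕜) (h.leadingCoeff⁻¹ * h.coeff i) *
      U ^ (k - i) * Y ^ i) + Y ^ k = algebraMap 𝕜 (Om 𝕜) (h.leadingCoeff⁻¹ * c) * U ^ k +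
        algebraMap 𝕜 (Om 𝕜) (h.leadingCoeff⁻¹ * ε) := by
    have h2 := congrArg (ips 𝕜) hy
    rw [gq, eval_add, eval_pow, eval_X, eval_sub, eval_C, eval_finsetSum, map_zero, map_add,
      map_sub, map_sum, map_pow, map_add, map_mul, map_pow, ips_C, ips_C, ips_X] at h2
    have h3 : ∀ i ∈ Finset.range k, ips 𝕜 (eval y (C (PowerSeries.C
        (h.leadingCoeff⁻¹ * h.coeff i) * PowerSeries.X ^ (k - i)) * X ^ i)) =
        algebraMap 𝕜 (Om 𝕜) (h.leadingCoeff⁻¹ * h.coeff i) * U ^ (k - i) * Y ^ i := by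
      intro i _
      rw [eval_mul, eval_C, eval_pow, eval_X, map_mul, map_mul, map_pow, map_pow, ips_C, ips_X]
    rw [Finset.sum_congr rfl h3] at h2
    linear_combination h2
  refine ⟨Y * V, ?_, ?_⟩
  · rw [Polynomial.aeval_eq_sum_range, hdeg, Finset.sum_range_succ]
    have ht : (sg (-k) 1 : Om 𝕜) = V ^ k := by
      rw [hV, sg_pow]
      congr 1
      ring
    have h4 : ∀ i ∈ Finset.range k, h.coeff i • (Y * V) ^ i =
        algebraMap 𝕜 (Om 𝕜) h.leadingCoeff * V ^ k *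
          (algebraMap 𝕜 (Om 𝕜) (h.leadingCoeff⁻¹ * h.coeff i) * U ^ (k - i) * Y ^ i) := by
      intro i hi
      have hi' := Finset.mem_range.1 hi
      have h5 : V ^ k * U ^ (k - i) = V ^ i := by
        have : V ^ k = V ^ i * V ^ (k - i) := by rw [← pow_add]; congr 1; omega
        rw [this, mul_assoc, ← mul_pow, mul_comm V U, hUV, one_pow, mul_one]
      rw [Algebra.smul_def]
      have h6 : algebraMap 𝕜 (Om 𝕜) h.leadingCoeff *
          algebraMap 𝕜 (Om 𝕜) (h.leadingCoeff⁻¹ * h.coeff i) = algebraMap 𝕜 (Om 𝕜) (h.coeff i) := by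
        rw [← map_mul, ← mul_assoc, mul_inv_cancel₀ hlc, one_mul]
      calc algebraMap 𝕜 (Om 𝕜) (h.coeff i) * (Y * V) ^ i
          = algebraMap 𝕜 (Om 𝕜) (h.coeff i) * V ^ i * Y ^ i := by rw [mul_pow]; ring
        _ = (algebraMap 𝕜 (Om 𝕜) h.leadingCoeff *
              algebraMap 𝕜 (Om 𝕜) (h.leadingCoeff⁻¹ * h.coeff i)) *
              (V ^ k * U ^ (k - i)) * Y ^ i := by rw [h6, h5]
        _ = _ := by ring
    rw [Finset.sum_congr rfl h4, ← Finset.mul_sum, ht, Algebra.smul_def]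
    have h7 : h.coeff k = h.leadingCoeff := by rw [← hdeg]; rfl
    rw [h7]
    have h8 : V ^ k * U ^ k = 1 := by rw [← mul_pow, mul_comm V U, hUV, one_pow]
    have h9 : algebraMap 𝕜 (Om 𝕜) h.leadingCoeff *
        algebraMap 𝕜 (Om 𝕜) (h.leadingCoeff⁻¹ * c) = algebraMap 𝕜 (Om 𝕜) c := by
      rw [← map_mul, ← mul_assoc, mul_inv_cancel₀ hlc, one_mul]
    have h10 : algebraMap 𝕜 (Om 𝕜) h.leadingCoeff *
        algebraMap 𝕜 (Om 𝕜) (h.leadingCoeff⁻¹ * ε) = algebraMap 𝕜 (Om 𝕜) ε := by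
      rw [← map_mul, ← mul_assoc, mul_inv_cancel₀ hlc, one_mul]
    have h11 := congrArg (fun w => algebraMap 𝕜 (Om 𝕜) h.leadingCoeff * V ^ k * w) h1
    simp only [mul_add] at h11
    calc algebraMap 𝕜 (Om 𝕜) h.leadingCoeff * V ^ k *
          (∑ i ∈ Finset.range k, algebraMap 𝕜 (Om 𝕜) (h.leadingCoeff⁻¹ * h.coeff i) *
            U ^ (k - i) * Y ^ i) + algebraMap 𝕜 (Om 𝕜) h.leadingCoeff * (Y * V) ^ k
        = algebraMap 𝕜 (Om 𝕜) h.leadingCoeff * V ^ k *
          (∑ i ∈ Finset.range k, algebraMap 𝕜 (Om 𝕜) (h.leadingCoeff⁻¹ * h.coeff i) *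
            U ^ (k - i) * Y ^ i) + algebraMap 𝕜 (Om 𝕜) h.leadingCoeff * V ^ k * Y ^ k := by
          rw [mul_pow]; ring
      _ = algebraMap 𝕜 (Om 𝕜) h.leadingCoeff * V ^ k *
            (algebraMap 𝕜 (Om 𝕜) (h.leadingCoeff⁻¹ * c) * U ^ k) +
          algebraMap 𝕜 (Om 𝕜) h.leadingCoeff * V ^ k *
            algebraMap 𝕜 (Om 𝕜) (h.leadingCoeff⁻¹ * ε) := h11
      _ = (algebraMap 𝕜 (Om 𝕜) h.leadingCoeff *
            algebraMap 𝕜 (Om 𝕜) (h.leadingCoeff⁻¹ * c)) * (V ^ k * U ^ k) +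
          (algebraMap 𝕜 (Om 𝕜) h.leadingCoeff *
            algebraMap 𝕜 (Om 𝕜) (h.leadingCoeff⁻¹ * ε)) * V ^ k := by ring
      _ = _ := by rw [h8, h9, h10]; ring
  · rw [mul_comm, hV, cf_sg_mul, one_mul]
    have : (-1 : ℤ) - -1 = 0 := by norm_num
    rw [this, hY, cf_ips_zero, hy0]

/-- top coefficient of a product -/
lemma cf_mul_top {n m : ℤ} {f g : Om 𝕜} (hf : Dgr n f) (hg : Dgr m g) :
    cf (f * g) (-(n + m)) = cf f (-n) * cf g (-m) := by
  have h1 : cf (f * g) (-(n + m)) = ∑ ij ∈ Finset.antidiagonal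
      (HahnSeries.isPWO_support (f : HahnSeries ℤ 𝕜)) (HahnSeries.isPWO_support
        (g : HahnSeries ℤ 𝕜)) (-(n + m)), cf f ij.1 * cf g ij.2 := HahnSeries.coeff_mul
  rw [h1]
  have h2 : ∀ ij ∈ Finset.antidiagonal
      (HahnSeries.isPWO_support (f : HahnSeries ℤ 𝕜)) (HahnSeries.isPWO_support
        (g : HahnSeries ℤ 𝕜)) (-(n + m)), ij ≠ ((-n, -m) : ℤ × ℤ) → cf f ij.1 * cf g ij.2 = 0 := by
    intro ij hij hne
    have h3 := (Finset.mem_antidiagonal.1 hij).2.2
    by_cases h4 : ij.1 < -n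
    · rw [hf _ h4, zero_mul]
    · by_cases h5 : ij.2 < -m
      · rw [hg _ h5, mul_zero]
      · exfalso
        apply hne
        ext
        · simp only; omega
        · simp only; omega
  by_cases h3 : ((-n, -m) : ℤ × ℤ) ∈ Finset.antidiagonal
      (HahnSeries.isPWO_support (f : HahnSeries ℤ 𝕜)) (HahnSeries.isPWO_support
        (g : HahnSeries ℤ 𝕜)) (-(n + m))
  · rw [Finset.sum_eq_single_of_mem _ h3 h2]
  · rw [Finset.sum_eq_zero (fun ij hij => h2 ij hij (fun h0 => h3 (h0 ▸ hij)))]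
    by_contra h4
    apply h3
    rw [Finset.mem_antidiagonal]
    refine ⟨?_, ?_, by ring⟩
    · intro h5
      apply h4
      have : cf f (-n) = 0 := h5
      rw [this, zero_mul]
    · intro h5
      apply h4
      have : cf g (-m) = 0 := h5
      rw [this, mul_zero]

lemma dgr_pow_top {n : ℤ} {f : Om 𝕜} (hf : Dgr n f) (i : ℕ) :
    Dgr (i * n) (f ^ i) ∧ cf (f ^ i) (-(i * n)) = (cf f (-n)) ^ i := by
  induction i with
  | zero =>
    rw [pow_zero, pow_zero, ← sg_one]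
    constructor
    · intro j hj
      rw [cf_sg, if_neg (by push_cast at hj; omega)]
    · rw [cf_sg, if_pos (by push_cast; ring)]
  | succ i ih =>
    rw [pow_succ, pow_succ]
    have h1 : ((i + 1 : ℕ) : ℤ) * n = i * n + n := by push_cast; ring
    rw [h1]
    exact ⟨hahn_mul_zero ih.1 hf, by rw [cf_mul_top ih.1 hf, ih.2]⟩

/-- degree of roots -/
lemma root_deg {p k : ℕ} [CharP 𝕜 p] (hk0 : (k : 𝕜) ≠ 0) {h : 𝕜[X]} (hdeg : h.natDegree = k)
    {ε c : 𝕜} {α : Om 𝕜}
    (hα : aeval α h = algebraMap 𝕜 (Om 𝕜) ε * sg (-k) 1 + algebraMap 𝕜 (Om 𝕜) c) :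
    Dgr 1 α := by
  have hA := amb_Om (𝕜 := 𝕜) p k hk0
  have hk : 1 ≤ k := by
    rcases Nat.eq_zero_or_pos k with h0 | h0
    · rw [h0] at hk0; simp at hk0
    · exact h0
  have hlc : h.leadingCoeff ≠ 0 := by
    intro h0
    rw [leadingCoeff_eq_zero] at h0
    rw [h0, natDegree_zero] at hdeg
    omega
  have hex : ∃ N : ℕ, Dgr (N + 1) α := by
    refine ⟨(-(HahnSeries.order (α : HahnSeries ℤ 𝕜))).toNat, ?_⟩
    intro i hi
    apply HahnSeries.coeff_eq_zero_of_lt_order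
    have := Int.self_le_toNat (-(HahnSeries.order (α : HahnSeries ℤ 𝕜)))
    change i < HahnSeries.order (α : HahnSeries ℤ 𝕜)
    omega
  classical
  set N := Nat.find hex with hN
  have hN1 : Dgr (N + 1) α := Nat.find_spec hex
  rcases Nat.eq_zero_or_pos N with h0 | h0
  · rw [h0] at hN1
    simpa using hN1
  exfalso
  have hmin := Nat.find_min hex (m := N - 1) (by omega)
  apply hmin
  have hcast : ((N - 1 : ℕ) : ℤ) + 1 = N := by omega
  rw [hcast]
  -- the top coefficient vanishes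
  have htop : cf α (-((N : ℤ) + 1)) = 0 := by
    have h1 := (dgr_pow_top hN1 k)
    have h2 : cf (aeval α h) (-((k : ℤ) * (N + 1))) = h.leadingCoeff * (cf α (-(N + 1))) ^ k := by
      rw [Polynomial.aeval_eq_sum_range, hdeg, Finset.sum_range_succ, cf_add]
      have h3 : cf (∑ i ∈ Finset.range k, h.coeff i • α ^ i) (-((k : ℤ) * (N + 1))) = 0 := by
        have h4 : Dgr ((k - 1 : ℤ) * (N + 1)) (∑ i ∈ Finset.range k, h.coeff i • α ^ i) := by
          have h5 : ∀ i ∈ Finset.range k, Dgr ((k - 1 : ℤ) * (N + 1)) (h.coeff i • α ^ i) := by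
            intro i hi
            have hi' := Finset.mem_range.1 hi
            rw [Algebra.smul_def]
            have h6 := hA.mul (hA.const (h.coeff i)) (dgr_pow_top hN1 i).1
            rw [zero_add] at h6
            refine hA.mono ?_ h6
            apply mul_le_mul_of_nonneg_right _ (by positivity)
            omega
          generalize Finset.range k = s at h5
          induction s using Finset.induction_on with
          | empty => rw [Finset.sum_empty]; exact hA.zero _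
          | insert j s hj ih =>
            rw [Finset.sum_insert hj]
            exact hA.add (h5 j (Finset.mem_insert_self _ _))
              (ih fun i hi => h5 i (Finset.mem_insert_of_mem hi))
        apply h4
        have : ((k : ℤ) - 1) * (N + 1) < (k : ℤ) * (N + 1) := by
          have : (0 : ℤ) < (N : ℤ) + 1 := by positivity
          nlinarith
        omega
      rw [h3, zero_add, Algebra.smul_def, cf_const_mul, h1.2]
      have h7 : h.coeff k = h.leadingCoeff := by rw [← hdeg]; rfl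
      rw [h7]
    have h8 : cf (aeval α h) (-((k : ℤ) * (N + 1))) = 0 := by
      rw [hα, cf_add, cf_const_mul, cf_sg, algMap_eq, cf_sg]
      have hkN : (k : ℤ) < (k : ℤ) * (N + 1) := by
        have h9 : (1 : ℤ) ≤ k := by exact_mod_cast hk
        have h10 : (1 : ℤ) ≤ N := by exact_mod_cast h0
        nlinarith
      rw [if_neg (by omega), if_neg (by
        have h9 : (1 : ℤ) ≤ k := by exact_mod_cast hk
        omega)]
      ring
    rw [h8] at h2
    rcases mul_eq_zero.1 h2.symm with h9 | h9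
    · exact absurd h9 hlc
    · exact pow_eq_zero_iff (by omega) |>.1 h9
  intro i hi
  by_cases h1 : i < -((N : ℤ) + 1)
  · exact hN1 i h1
  · have : i = -((N : ℤ) + 1) := by omega
    rw [this, htop]

lemma splits_Om [IsAlgClosed 𝕜] {k : ℕ} (hk0 : (k : 𝕜) ≠ 0) {h : 𝕜[X]} (hdeg : h.natDegree = k)
    {ε c : 𝕜} (hε : ε ≠ 0) : (h.map (algebraMap 𝕜 (Om 𝕜)) -
      C (algebraMap 𝕜 (Om 𝕜) ε * sg (-k) 1 + algebraMap 𝕜 (Om 𝕜) c)).Splits := by
  classical
  have hk : 1 ≤ k := by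
    rcases Nat.eq_zero_or_pos k with h0 | h0
    · rw [h0] at hk0; simp at hk0
    · exact h0
  have hlc : h.leadingCoeff ≠ 0 := by
    intro h0
    rw [leadingCoeff_eq_zero] at h0
    rw [h0, natDegree_zero] at hdeg
    omega
  set a : 𝕜 := h.leadingCoeff⁻¹ * ε with ha
  have ha0 : a ≠ 0 := mul_ne_zero (inv_ne_zero hlc) hε
  set q : 𝕜[X] := X ^ k - C a with hq
  have hqd : q.natDegree = k := natDegree_X_pow_sub_C
  have hqsep : q.Separable := separable_X_pow_sub_C a hk0 ha0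
  have hqcard : q.roots.card = k := by
    rw [splits_iff_card_roots.1 (IsAlgClosed.splits q), hqd]
  have hqnd : q.roots.Nodup := nodup_roots hqsep
  have hroot : ∀ ζ ∈ q.roots.toFinset, ∃ α : Om 𝕜, aeval α h =
      algebraMap 𝕜 (Om 𝕜) ε * sg (-k) 1 + algebraMap 𝕜 (Om 𝕜) c ∧ cf α (-1) = ζ := by
    intro ζ hζ
    rw [Multiset.mem_toFinset] at hζ
    have h1 := (mem_roots'.1 hζ).2
    rw [IsRoot.def, hq, eval_sub, eval_pow, eval_X, eval_C, sub_eq_zero] at h1
    exact exists_root_Om hk0 hdeg hε h1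
  choose! r hr1 hr2 using hroot
  set f : (Om 𝕜)[X] := h.map (algebraMap 𝕜 (Om 𝕜)) -
      C (algebraMap 𝕜 (Om 𝕜) ε * sg (-k) 1 + algebraMap 𝕜 (Om 𝕜) c) with hf
  have hfd : f.natDegree = k := by rw [hf, natDegree_sub_C, natDegree_map, hdeg]
  have hf0 : f ≠ 0 := by
    intro h0
    rw [h0, natDegree_zero] at hfd
    omega
  have hinj : Set.InjOn r (q.roots.toFinset : Set 𝕜) := by
    intro ζ hζ ζ' hζ' heq
    rw [← hr2 ζ hζ, ← hr2 ζ' hζ', heq]
  have hsub : (q.roots.toFinset.image r).val ≤ f.roots := by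
    rw [Multiset.le_iff_subset (Finset.nodup _)]
    intro α hα
    rw [Finset.mem_val, Finset.mem_image] at hα
    obtain ⟨ζ, hζ, rfl⟩ := hα
    rw [mem_roots', IsRoot.def, hf, eval_sub, eval_C, eval_map_algebraMap, hr1 ζ hζ, sub_self]
    exact ⟨hf0, rfl⟩
  have hc1 := Multiset.card_le_card hsub
  rw [Finset.card_val, Finset.card_image_of_injOn hinj,
    Multiset.toFinset_card_of_nodup hqnd, hqcard] at hc1
  rw [splits_iff_card_roots]
  have hc2 := card_roots' f
  omega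

end

theorem ambient : AmbientProp := by
  intro p k 𝕜 _ _ _ hk0 h hdeg
  refine ⟨Om 𝕜, inferInstance, inferInstance, DD 𝕜 k, sg (-k) 1, Dgr, amb_Om p k hk0, ?_⟩
  intro ε c hε
  exact ⟨splits_Om hk0 hdeg hε, fun α hα => root_deg (p := p) hk0 hdeg hα⟩

theorem w3 : W3 := w3_of ambient

end Vale.Agent.P042.WA
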