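import Mathlib.FieldTheory.RatFunc.IntermediateField
import Mathlib.RingTheory.Derivation.Basic
import Mathlib.RingTheory.IntegralClosure.IntegrallyClosed
import Mathlib.RingTheory.Polynomial.RationalRoot
import Mathlib.FieldTheory.Galois.Basic
set_option autoImplicit false

namespace Vale.Agent.P042.WA

open Polynomial IntermediateField

section base

variable {𝕜 Ω : Type} [Field 𝕜] [Field Ω] [Algebra 𝕜 Ω]

/-- `f` is integral over `𝕜[t]` -/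
def Intg (𝕜 : Type) {Ω : Type} [Field 𝕜] [Field Ω] [Algebra 𝕜 Ω] (t f : Ω) : Prop :=
  ((aeval t : 𝕜[X] →ₐ[𝕜] Ω) : 𝕜[X] →+* Ω).IsIntegralElem f

lemma Intg.add {t f g : Ω} (hf : Intg 𝕜 t f) (hg : Intg 𝕜 t g) : Intg 𝕜 t (f + g) :=
  RingHom.IsIntegralElem.add _ hf hg

lemma Intg.mul {t f g : Ω} (hf : Intg 𝕜 t f) (hg : Intg 𝕜 t g) : Intg 𝕜 t (f * g) :=
  RingHom.IsIntegralElem.mul _ hf hg

lemma Intg.neg {t f : Ω} (hf : Intg 𝕜 t f) : Intg 𝕜 t (-f) :=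
  RingHom.IsIntegralElem.neg _ hf

lemma Intg.sub {t f g : Ω} (hf : Intg 𝕜 t f) (hg : Intg 𝕜 t g) : Intg 𝕜 t (f - g) :=
  RingHom.IsIntegralElem.sub _ hf hg

lemma Intg.poly (t : Ω) (P : 𝕜[X]) : Intg 𝕜 t (aeval t P) :=
  RingHom.isIntegralElem_map _

lemma Intg.const (t : Ω) (c : 𝕜) : Intg 𝕜 t (algebraMap 𝕜 Ω c) := by
  have := Intg.poly (𝕜 := 𝕜) t (C c)
  simpa using this

lemma Intg.one (t : Ω) : Intg 𝕜 t 1 := RingHom.isIntegralElem_one _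

lemma Intg.zero (t : Ω) : Intg 𝕜 t 0 := RingHom.isIntegralElem_zero _

lemma Intg.pow {t f : Ω} (hf : Intg 𝕜 t f) (n : ℕ) : Intg 𝕜 t (f ^ n) := by
  induction n with
  | zero => simpa using Intg.one t
  | succ n ih => rw [pow_succ]; exact ih.mul hf

lemma Intg.prod {t : Ω} {ι : Type} (s : Finset ι) (f : ι → Ω) (hf : ∀ i ∈ s, Intg 𝕜 t (f i)) :
    Intg 𝕜 t (∏ i ∈ s, f i) := by
  classical
  induction s using Finset.induction_on with
  | empty => simpa using Intg.one t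
  | insert a s ha ih =>
    rw [Finset.prod_insert ha]
    exact (hf a (Finset.mem_insert_self _ _)).mul (ih fun i hi => hf i (Finset.mem_insert_of_mem hi))

lemma inj_aeval {t : Ω} (ht : Transcendental 𝕜 t) :
    Function.Injective (((aeval t : 𝕜[X] →ₐ[𝕜] Ω) : 𝕜[X] →+* Ω) : 𝕜[X] → Ω) :=
  transcendental_iff_injective.1 ht

/-- the embedding of the rational function field given by a transcendental element -/
noncomputable def jt {t : Ω} (ht : Transcendental 𝕜 t) : RatFunc 𝕜 →+* Ω :=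
  IsFractionRing.lift (A := 𝕜[X]) (inj_aeval ht)

lemma jt_algebraMap {t : Ω} (ht : Transcendental 𝕜 t) (P : 𝕜[X]) :
    jt ht (algebraMap 𝕜[X] (RatFunc 𝕜) P) = aeval t P := by
  unfold jt
  exact IsFractionRing.lift_algebraMap (inj_aeval ht) P

lemma jt_comp {t : Ω} (ht : Transcendental 𝕜 t) :
    (jt ht).comp (algebraMap 𝕜[X] (RatFunc 𝕜)) = ((aeval t : 𝕜[X] →ₐ[𝕜] Ω) : 𝕜[X] →+* Ω) :=
  RingHom.ext fun P => jt_algebraMap ht P

lemma mem_adjoin_iff {t : Ω} (ht : Transcendental 𝕜 t) (f : Ω) :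
    f ∈ 𝕜⟮t⟯ ↔ ∃ φ : RatFunc 𝕜, jt ht φ = f := by
  rw [IntermediateField.mem_adjoin_simple_iff]
  constructor
  · rintro ⟨r, s, rfl⟩
    refine ⟨algebraMap 𝕜[X] (RatFunc 𝕜) r / algebraMap 𝕜[X] (RatFunc 𝕜) s, ?_⟩
    rw [map_div₀, jt_algebraMap, jt_algebraMap]
  · rintro ⟨φ, rfl⟩
    refine ⟨φ.num, φ.denom, ?_⟩
    conv_lhs => rw [← RatFunc.num_div_denom φ]
    rw [map_div₀, jt_algebraMap, jt_algebraMap]

/-- an element of `𝕜(t)` integral over `𝕜[t]` is in `𝕜[t]` -/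
lemma poly_of_intg {t : Ω} (ht : Transcendental 𝕜 t) {f : Ω} (hf : f ∈ 𝕜⟮t⟯)
    (hi : Intg 𝕜 t f) : ∃ P : 𝕜[X], aeval t P = f := by
  obtain ⟨φ, rfl⟩ := (mem_adjoin_iff ht f).1 hf
  obtain ⟨q, hq, hq0⟩ := hi
  have h1 : IsIntegral 𝕜[X] φ := by
    refine ⟨q, hq, ?_⟩
    rw [← jt_comp ht, ← Polynomial.hom_eval₂] at hq0
    exact (map_eq_zero (jt ht)).1 hq0
  obtain ⟨P, hP⟩ := IsIntegrallyClosed.isIntegral_iff.1 h1
  exact ⟨P, by rw [← jt_algebraMap ht, hP]⟩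

end base

end Vale.Agent.P042.WA
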