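import Vale.Agent.P042.WA.W3.Minpoly
import Mathlib.FieldTheory.PrimitiveElement
set_option autoImplicit false

namespace Vale.Agent.P042.WA

open Polynomial IntermediateField

/-- lower bound for the degree of a minimal polynomial -/
lemma natDegree_le_minpoly {L0 L Ω : Type} [Field L0] [Field L] [Field Ω] [Algebra L Ω]
    (j : L0 →+* Ω) (G : L0[X]) (hG : Irreducible G) {z : Ω} (hz : eval₂ j z G = 0)
    (hL : ∀ a : L, ∃ b : L0, j b = algebraMap L Ω a) (hint : IsIntegral L z) :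
    G.natDegree ≤ (minpoly L z).natDegree := by
  let _ : Algebra L0 Ω := j.toAlgebra
  have hj : algebraMap L0 Ω = j := rfl
  have h1 : (minpoly L z).map (algebraMap L Ω) ∈ Polynomial.lifts (algebraMap L0 Ω) := by
    rw [Polynomial.lifts_iff_coeff_lifts]
    intro i
    rw [coeff_map]
    obtain ⟨b, hb⟩ := hL ((minpoly L z).coeff i)
    exact ⟨b, hb⟩
  obtain ⟨q, hq⟩ := (Polynomial.mem_lifts _).1 h1
  have hqz : aeval z q = 0 := by
    rw [← eval_map_algebraMap, hq, eval_map_algebraMap]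
    exact minpoly.aeval _ _
  have hq0 : q ≠ 0 := by
    rintro rfl
    rw [Polynomial.map_zero] at hq
    exact ((minpoly.monic hint).map (algebraMap L Ω)).ne_zero hq.symm
  have hGz : aeval z G = 0 := hz
  have h2 := minpoly.eq_of_irreducible hG hGz
  have h3 := natDegree_le_of_dvd (minpoly.dvd L0 z hqz) hq0
  have h4 : (minpoly L0 z).natDegree = G.natDegree := by
    rw [← h2, mul_comm, natDegree_C_mul]
    exact inv_ne_zero (leadingCoeff_ne_zero.2 hG.ne_zero)
  have h5 : q.natDegree = (minpoly L z).natDegree := by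
    rw [← natDegree_map (algebraMap L0 Ω) (p := q), hq, natDegree_map]
  omega

lemma finrank_two {L Ω : Type} [Field L] [Field Ω] [Algebra L Ω] {a b : Ω}
    (ha : IsIntegral L a) (hb : IsIntegral L b) :
    Module.finrank L (adjoin L {a, b}) =
      (minpoly L a).natDegree * (minpoly L⟮a⟯ b).natDegree := by
  rw [← adjoin.finrank ha, ← adjoin.finrank (hb.tower_top (A := L⟮a⟯)),
    ← adjoin_simple_adjoin_simple]
  exact (Module.finrank_mul_finrank L L⟮a⟯ L⟮a⟯⟮b⟯).symm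

section

variable {𝕜 : Type} [Field 𝕜]

/-- `h(Y) - X - s` is irreducible over `𝕜(X)` -/
lemma irred_lin (h : 𝕜[X]) (hdeg : h.natDegree ≠ 0) (s : 𝕜) :
    Irreducible (h.map (algebraMap 𝕜 (RatFunc 𝕜)) -
      C (algebraMap 𝕜[X] (RatFunc 𝕜) (X + C s))) := by
  have h1 : Irreducible (C (-1) * X + C (h - C s) : 𝕜[X][X]) := by
    apply irreducible_C_mul_X_add_C
    · exact neg_ne_zero.2 one_ne_zero
    · exact isCoprime_one_left.neg_left.isRelPrime
  have h2 : Irreducible (Bivariate.swap (C (-1) * X + C (h - C s) : 𝕜[X][X])) :=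
    (MulEquiv.irreducible_iff (Bivariate.swap (R := 𝕜)).toMulEquiv).2 h1
  have h3 : Bivariate.swap (C (-1) * X + C (h - C s) : 𝕜[X][X]) = h.map C - C (X + C s) := by
    rw [map_add, map_mul, Bivariate.swap_C, Bivariate.swap_C, Bivariate.swap_Y]
    simp only [Polynomial.map_neg, Polynomial.map_one, Polynomial.map_sub, map_C, C_add]
    ring
  rw [h3] at h2
  have h4 : (h.map C - C (X + C s) : 𝕜[X][X]).natDegree = h.natDegree := by
    rw [natDegree_sub_C, natDegree_map_eq_of_injective C_injective]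
  have h5 : (h.map C - C (X + C s) : 𝕜[X][X]).IsPrimitive :=
    h2.isPrimitive (by rw [h4]; exact hdeg)
  have h6 := (h5.irreducible_iff_irreducible_map_fraction_map (K := RatFunc 𝕜)).1 h2
  rw [Polynomial.map_sub, Polynomial.map_map, map_C] at h6
  have h7 : ((algebraMap 𝕜[X] (RatFunc 𝕜)).comp C) = algebraMap 𝕜 (RatFunc 𝕜) := by
    ext c
    simp
  rw [h7] at h6
  exact h6

variable {Ω : Type} [Field Ω] [Algebra 𝕜 Ω] {t : Ω}

/-- degree of `x'` over `𝕜(t)` -/
lemma deg_x_base (htr : Transcendental 𝕜 t) {h : 𝕜[X]} (hdeg : h.natDegree ≠ 0) {s : 𝕜} {x' : Ω}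
    (hx' : aeval x' h = t + algebraMap 𝕜 Ω s) (hint : IsIntegral 𝕜⟮t⟯ x') :
    h.natDegree ≤ (minpoly 𝕜⟮t⟯ x').natDegree := by
  have h1 := natDegree_le_minpoly (L := 𝕜⟮t⟯) (jt htr) _ (irred_lin h hdeg s) (z := x') (by
    rw [eval₂_sub, eval₂_C, jt_algebraMap, eval₂_map]
    have h2 : (jt htr).comp (algebraMap 𝕜 (RatFunc 𝕜)) = algebraMap 𝕜 Ω := by
      ext c
      have h3 : algebraMap 𝕜 (RatFunc 𝕜) c = algebraMap 𝕜[X] (RatFunc 𝕜) (C c) := by simp
      rw [RingHom.comp_apply, h3, jt_algebraMap, aeval_C]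
    rw [h2, ← aeval_def, hx']
    simp) (fun a => (mem_adjoin_iff htr (a : Ω)).1 a.2) hint
  rwa [natDegree_sub_C, natDegree_map] at h1

/-- degree of `z'` over `𝕜(t)(x')` -/
lemma deg_z_base (htr : Transcendental 𝕜 t) {h : 𝕜[X]} {F : 𝕜[X][X]} {d : ℕ}
    (hF : GoodFac h F d) (hirr : Irreducible F) {s : 𝕜} {x' z' : Ω}
    (hx' : aeval x' h = t + algebraMap 𝕜 Ω s) (hz' : ev2 x' z' F = 0)
    (hint : IsIntegral 𝕜⟮t⟯⟮x'⟯ z') :
    d ≤ (minpoly 𝕜⟮t⟯⟮x'⟯ z').natDegree := by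
  have hτ : Transcendental 𝕜 (t + algebraMap 𝕜 Ω s) := by
    have := tr_lin htr (ε := (1 : 𝕜)) (by simp) s
    simpa using this
  have hxtr : Transcendental 𝕜 x' := tr_root hτ h hx'
  have h1 := natDegree_le_minpoly (L := 𝕜⟮t⟯⟮x'⟯) (jt hxtr) _ (Fr_irred hF.monic hirr) (z := z')
    (ev2_Fr hxtr hz') (by
      intro a
      have ht : ∀ P : 𝕜[X], ∃ b, jt hxtr b = aeval t P := by
        intro P
        refine ⟨algebraMap 𝕜[X] (RatFunc 𝕜) (P.comp (h - C s)), ?_⟩
        rw [jt_algebraMap, aeval_comp, map_sub, hx', aeval_C]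
        congr 2
        ring
      have ha := a.2
      obtain ⟨a, ha'⟩ := a
      simp only at ha
      change ∃ b, jt hxtr b = a
      clear ha'
      induction ha using IntermediateField.adjoin_induction with
      | mem y hy =>
        rw [Set.mem_singleton_iff.1 hy]
        exact ⟨algebraMap 𝕜[X] (RatFunc 𝕜) X, by rw [jt_algebraMap, aeval_X]⟩
      | algebraMap y =>
        obtain ⟨r, q, hrs⟩ := (IntermediateField.mem_adjoin_simple_iff 𝕜 (y : Ω)).1 y.2
        obtain ⟨a, ha⟩ := ht r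
        obtain ⟨b, hb⟩ := ht q
        refine ⟨a / b, ?_⟩
        rw [map_div₀, ha, hb]
        exact hrs.symm
      | add a b _ _ ha hb =>
        obtain ⟨u, rfl⟩ := ha
        obtain ⟨v, rfl⟩ := hb
        exact ⟨u + v, map_add _ _ _⟩
      | inv a _ ha =>
        obtain ⟨u, rfl⟩ := ha
        exact ⟨u⁻¹, map_inv₀ _ _⟩
      | mul a b _ _ ha hb =>
        obtain ⟨u, rfl⟩ := ha
        obtain ⟨v, rfl⟩ := hb
        exact ⟨u * v, map_mul _ _ _⟩) hint
  rwa [hF.monic.natDegree_map, hF.deg] at h1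

/-- upper bound for the degree of `x'` -/
lemma deg_x_le {L : Type} [Field L] [Algebra 𝕜 L] [Algebra L Ω] [IsScalarTower 𝕜 L Ω]
    {h : 𝕜[X]} (hdeg : h.natDegree ≠ 0) {x' : Ω} (τ : L)
    (hx' : aeval x' h = algebraMap L Ω τ) :
    IsIntegral L x' ∧ (minpoly L x').natDegree ≤ h.natDegree := by
  have h0 : (h.map (algebraMap 𝕜 L) - C τ).natDegree = h.natDegree := by
    rw [natDegree_sub_C, natDegree_map]
  have h1 : h.map (algebraMap 𝕜 L) - C τ ≠ 0 := by
    intro h2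
    rw [h2, natDegree_zero] at h0
    exact hdeg h0.symm
  have h2 : aeval x' (h.map (algebraMap 𝕜 L) - C τ) = 0 := by
    rw [map_sub, aeval_map_algebraMap, aeval_C, hx', sub_self]
  refine ⟨isAlgebraic_iff_isIntegral.1 ⟨_, h1, h2⟩, ?_⟩
  have := natDegree_le_of_dvd (minpoly.dvd L x' h2) h1
  omega

/-- upper bound for the degree of `z'` -/
lemma deg_z_le {L : Type} [Field L] [Algebra 𝕜 L] [Algebra L Ω] [IsScalarTower 𝕜 L Ω]
    {h : 𝕜[X]} {F : 𝕜[X][X]} {d : ℕ} (hF : GoodFac h F d) {x' z' : Ω} (ξ : L)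
    (hξ : algebraMap L Ω ξ = x') (hz' : ev2 x' z' F = 0) :
    IsIntegral L z' ∧ (minpoly L z').natDegree ≤ d := by
  set G : L[X] := F.map ((aeval ξ : 𝕜[X] →ₐ[𝕜] L) : 𝕜[X] →+* L) with hG
  have hGm : G.Monic := hF.monic.map _
  have h2 : aeval z' G = 0 := by
    rw [hG, aeval_def, eval₂_map]
    have h3 : (algebraMap L Ω).comp ((aeval ξ : 𝕜[X] →ₐ[𝕜] L) : 𝕜[X] →+* L) =
        ((aeval x' : 𝕜[X] →ₐ[𝕜] Ω) : 𝕜[X] →+* Ω) := by
      apply RingHom.ext
      intro P
      simp only [RingHom.comp_apply, RingHom.coe_coe]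
      rw [← aeval_algebraMap_apply, hξ]
    rw [h3]
    exact hz'
  refine ⟨⟨G, hGm, h2⟩, ?_⟩
  have := natDegree_le_of_dvd (minpoly.dvd L z' h2) hGm.ne_zero
  rwa [hG, hF.monic.natDegree_map, hF.deg] at this

end

end Vale.Agent.P042.WA
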