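import Vale.Agent.P042.WA.W3.StepA
set_option autoImplicit false

namespace Vale.Agent.P042.WA

open Polynomial IntermediateField

section

variable {𝕜 Ω : Type} [Field 𝕜] [Field Ω] [Algebra 𝕜 Ω] {t : Ω}

lemma isAlg_aeval {α : Ω} (hα : IsAlgebraic 𝕜 α) (P : 𝕜[X]) : IsAlgebraic 𝕜 (aeval α P) := by
  rw [isAlgebraic_iff_isIntegral] at hα ⊢
  have h2 : Algebra.adjoin 𝕜 {α} ≤ integralClosure 𝕜 Ω := by
    apply Algebra.adjoin_le
    intro x hx
    rw [Set.mem_singleton_iff.1 hx]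
    exact hα
  exact h2 (aeval_mem_adjoin_singleton 𝕜 α)

lemma tr_root {α a : Ω} (ha : Transcendental 𝕜 a) (h : 𝕜[X]) (hα : aeval α h = a) :
    Transcendental 𝕜 α := by
  intro h0
  apply ha
  rw [← hα]
  exact isAlg_aeval h0 h

/-- `ε t + c` is transcendental -/
lemma tr_lin (ht : Transcendental 𝕜 t) {ε : 𝕜} (hε : ε ≠ 0) (c : 𝕜) :
    Transcendental 𝕜 (algebraMap 𝕜 Ω ε * t + algebraMap 𝕜 Ω c) := by
  intro h0
  apply ht
  have h1 : t = aeval (algebraMap 𝕜 Ω ε * t + algebraMap 𝕜 Ω c) (C ε⁻¹ * (X - C c)) := by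
    rw [map_mul, map_sub, aeval_C, aeval_X, aeval_C, map_inv₀]
    have : algebraMap 𝕜 Ω ε ≠ 0 := (_root_.map_ne_zero _).2 hε
    field_simp
    ring
  rw [h1]
  exact isAlg_aeval h0 _

lemma D_root_formula (D : Derivation 𝕜 Ω Ω) {h χ P : 𝕜[X]} (hχ : χ.comp h = P * h.derivative)
    {α a : Ω} (hα : aeval α h = a) (ha : aeval a χ ≠ 0) :
    D α = aeval α P * (aeval a χ)⁻¹ * D a := by
  have h1 := D_root h D hα
  have h2 : aeval α P * aeval α h.derivative = aeval a χ := by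
    have := congrArg (aeval α) hχ
    rw [map_mul, aeval_comp, hα] at this
    exact this.symm
  have h3 : aeval α h.derivative ≠ 0 := by
    intro h0
    rw [h0, mul_zero] at h2
    exact ha h2.symm
  rw [← h1, ← h2]
  have h4 : aeval α P ≠ 0 := by
    intro h0
    rw [h0, zero_mul] at h2
    exact ha h2.symm
  field_simp

/-- the two denominators -/
noncomputable def del1 (χ : 𝕜[X]) : 𝕜[X] := χ * χ.comp (-X)
noncomputable def del2 (χ : 𝕜[X]) (s : 𝕜) : 𝕜[X] := χ.comp (X + C s) * χ.comp (-X - C s)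

lemma aeval_del1 (χ : 𝕜[X]) : aeval t (del1 χ) = aeval t χ * aeval (-t) χ := by
  rw [del1, map_mul, aeval_comp]
  simp

lemma aeval_del2 (χ : 𝕜[X]) (s : 𝕜) : aeval t (del2 χ s) =
    aeval (t + algebraMap 𝕜 Ω s) χ * aeval (-(t + algebraMap 𝕜 Ω s)) χ := by
  rw [del2, map_mul, aeval_comp, aeval_comp]
  congr 2
  · simp
  · simp
    ring_nf

lemma coprime_del [IsAlgClosed 𝕜] {h χ : 𝕜[X]} {s : 𝕜}
    (hχ : ∀ c, χ.eval c = 0 → ∃ z, h.derivative.eval z = 0 ∧ h.eval z = c)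
    (hs : ¬ Bad h s) : IsCoprime (del1 χ) (del2 χ s) := by
  rw [Polynomial.isCoprime_iff_aeval_ne_zero_of_isAlgClosed (K := 𝕜) 𝕜]
  intro a
  by_contra hcon
  push Not at hcon
  obtain ⟨h1, h2⟩ := hcon
  rw [aeval_del1] at h1
  rw [aeval_del2] at h2
  simp only [coe_aeval_eq_eval, Algebra.algebraMap_self, RingHom.id_apply] at h1 h2
  apply hs
  rcases mul_eq_zero.1 h1 with h1 | h1 <;> rcases mul_eq_zero.1 h2 with h2 | h2
  · obtain ⟨c, hc, hc'⟩ := hχ _ h1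
    obtain ⟨e, he, he'⟩ := hχ _ h2
    exact ⟨e, c, he, hc, Or.inl (by rw [he', hc']; ring)⟩
  · obtain ⟨c, hc, hc'⟩ := hχ _ h1
    obtain ⟨e, he, he'⟩ := hχ _ h2
    exact ⟨e, c, he, hc, Or.inr (Or.inr (by rw [he', hc']; ring))⟩
  · obtain ⟨c, hc, hc'⟩ := hχ _ h1
    obtain ⟨e, he, he'⟩ := hχ _ h2
    exact ⟨e, c, he, hc, Or.inr (Or.inl (by rw [he', hc']; ring))⟩
  · obtain ⟨c, hc, hc'⟩ := hχ _ h1
    obtain ⟨e, he, he'⟩ := hχ _ h2
    exact ⟨c, e, hc, he, Or.inl (by rw [he', hc']; ring)⟩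

/-- the ring generated by some roots and the inverse of a polynomial in `t` is stable under `D` -/
lemma D_stable (D : Derivation 𝕜 Ω Ω) (hDt : D t = 1) (S : Set Ω) (δ : 𝕜[X])
    {h χ P : 𝕜[X]} (hχ : χ.comp h = P * h.derivative)
    (hδ0 : aeval t δ ≠ 0) (htS : t ∈ Algebra.adjoin 𝕜 (insert (aeval t δ)⁻¹ S))
    (hS : ∀ α ∈ S, ∃ a : Ω, ∃ e : 𝕜, ∃ U : 𝕜[X], aeval α h = a ∧ D a = algebraMap 𝕜 Ω e ∧
      aeval a χ * aeval t U = aeval t δ) (f : Ω)
    (hf : f ∈ Algebra.adjoin 𝕜 (insert (aeval t δ)⁻¹ S)) :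
    D f ∈ Algebra.adjoin 𝕜 (insert (aeval t δ)⁻¹ S) := by
  have hpoly : ∀ U : 𝕜[X], aeval t U ∈ Algebra.adjoin 𝕜 (insert (aeval t δ)⁻¹ S) := by
    intro U
    have h1 : Algebra.adjoin 𝕜 {t} ≤ Algebra.adjoin 𝕜 (insert (aeval t δ)⁻¹ S) := by
      apply Algebra.adjoin_le
      intro y hy
      rw [Set.mem_singleton_iff.1 hy]
      exact htS
    exact h1 (aeval_mem_adjoin_singleton 𝕜 t)
  apply D_adjoin D _ _ f hf
  intro y hy
  rcases Set.mem_insert_iff.1 hy with rfl | hy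
  · rw [D.leibniz_inv, smul_eq_mul, D_aeval, hDt, mul_one]
    have h1 : (aeval t δ)⁻¹ ∈ Algebra.adjoin 𝕜 (insert (aeval t δ)⁻¹ S) :=
      Algebra.subset_adjoin (Set.mem_insert _ _)
    exact Subalgebra.mul_mem _ (Subalgebra.neg_mem _ (Subalgebra.pow_mem _ h1 2)) (hpoly _)
  · obtain ⟨a, e, U, hα, hDa, hU⟩ := hS y hy
    have ha : aeval a χ ≠ 0 := by
      intro h0
      rw [h0, zero_mul] at hU
      exact hδ0 hU.symm
    rw [D_root_formula D hχ hα ha, hDa]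
    have hUne : aeval t U ≠ 0 := by
      intro h0
      rw [h0, mul_zero] at hU
      exact hδ0 hU.symm
    have h1 : (aeval a χ)⁻¹ = aeval t U * (aeval t δ)⁻¹ := by
      rw [← hU]
      field_simp
    rw [h1]
    have hy' : y ∈ Algebra.adjoin 𝕜 (insert (aeval t δ)⁻¹ S) :=
      Algebra.subset_adjoin (Set.mem_insert_of_mem _ hy)
    have h2 : aeval y P ∈ Algebra.adjoin 𝕜 (insert (aeval t δ)⁻¹ S) := by
      have h1 : Algebra.adjoin 𝕜 {y} ≤ Algebra.adjoin 𝕜 (insert (aeval t δ)⁻¹ S) := by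
        apply Algebra.adjoin_le
        intro y hy
        rw [Set.mem_singleton_iff.1 hy]
        exact hy'
      exact h1 (aeval_mem_adjoin_singleton 𝕜 y)
    refine Subalgebra.mul_mem _ (Subalgebra.mul_mem _ h2 (Subalgebra.mul_mem _ (hpoly U) ?_))
      (Subalgebra.algebraMap_mem _ _)
    exact Algebra.subset_adjoin (Set.mem_insert _ _)

/-- integrality of roots of `h(X) = a` for `a ∈ 𝕜[t]` -/
lemma intg_root {h : 𝕜[X]} (h0 : h.natDegree ≠ 0) {α : Ω} {P : 𝕜[X]}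
    (hα : aeval α h = aeval t P) : Intg 𝕜 t α := by
  have hlc : h.leadingCoeff ≠ 0 := by
    intro h1
    rw [leadingCoeff_eq_zero] at h1
    rw [h1] at h0
    exact h0 natDegree_zero
  have hd : 0 < h.degree := by
    rw [← natDegree_pos_iff_degree_pos]; omega
  refine ⟨(C (h.leadingCoeff⁻¹) * h).map C - C (C (h.leadingCoeff⁻¹) * P), ?_, ?_⟩
  · have hm : (C (h.leadingCoeff⁻¹) * h).Monic := monic_C_mul_of_mul_leadingCoeff_eq_one
      (inv_mul_cancel₀ hlc)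
    apply Monic.sub_of_left (hm.map C)
    refine lt_of_le_of_lt degree_C_le ?_
    rw [degree_map_eq_of_injective C_injective, degree_C_mul (inv_ne_zero hlc)]
    exact hd
  · rw [eval₂_sub, eval₂_C, eval₂_map]
    have h1 : (((aeval t : 𝕜[X] →ₐ[𝕜] Ω) : 𝕜[X] →+* Ω).comp C) = algebraMap 𝕜 Ω := by
      ext c
      simp
    rw [h1]
    have h2 : eval₂ (algebraMap 𝕜 Ω) α (C h.leadingCoeff⁻¹ * h) =
        algebraMap 𝕜 Ω (h.leadingCoeff⁻¹) * aeval α h := by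
      rw [← aeval_def, map_mul, aeval_C]
    rw [h2, hα]
    simp

end

end Vale.Agent.P042.WA
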