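import Vale.Agent.P042.WA.W3.FunField
set_option autoImplicit false

namespace Vale.Agent.P042.WA

open Polynomial IntermediateField

section

variable {𝕜 Ω : Type} [Field 𝕜] [Field Ω] [Algebra 𝕜 Ω] {t : Ω}

/-- the set of roots `h(α) = ± τ`. -/
def SS (h : 𝕜[X]) (τ : Ω) : Set Ω := {α | aeval α h = τ ∨ aeval α h = -τ}

lemma SS_eq_rootSet (h : 𝕜[X]) (τ : 𝕜⟮t⟯)
    (hne : ((h.map (algebraMap 𝕜 𝕜⟮t⟯) - C τ) * (h.map (algebraMap 𝕜 𝕜⟮t⟯) - C (-τ))) ≠ 0) :
    ((h.map (algebraMap 𝕜 𝕜⟮t⟯) - C τ) * (h.map (algebraMap 𝕜 𝕜⟮t⟯) - C (-τ))).rootSet Ω =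
      SS h (τ : Ω) := by
  ext α
  rw [mem_rootSet]
  have h1 : ∀ a : 𝕜⟮t⟯, aeval α (h.map (algebraMap 𝕜 𝕜⟮t⟯) - C a) = aeval α h - (a : Ω) := by
    intro a
    rw [map_sub, aeval_map_algebraMap, aeval_C]
    rfl
  rw [map_mul, h1, h1, mul_eq_zero, SS, Set.mem_ofPred_eq, sub_eq_zero, sub_eq_zero]
  constructor
  · rintro ⟨_, h2 | h2⟩
    · exact Or.inl h2
    · exact Or.inr (by rw [h2]; rfl)
  · rintro (h2 | h2)
    · exact ⟨hne, Or.inl h2⟩
    · exact ⟨hne, Or.inr (by rw [h2]; rfl)⟩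

lemma E_props [IsAlgClosed 𝕜] (h : 𝕜[X]) (hh : h.derivative ≠ 0) (h2 : (2 : 𝕜) ≠ 0)
    (τ : 𝕜⟮t⟯) (hτ : Transcendental 𝕜 (τ : Ω))
    (hspl : ∀ a : Ω, (a = τ ∨ a = -τ) → (h.map (algebraMap 𝕜 Ω) - C a).Splits) :
    FiniteDimensional 𝕜⟮t⟯ (adjoin 𝕜⟮t⟯ (SS h (τ : Ω))) ∧
      IsGalois 𝕜⟮t⟯ (adjoin 𝕜⟮t⟯ (SS h (τ : Ω))) := by
  set PP : 𝕜⟮t⟯[X] := (h.map (algebraMap 𝕜 𝕜⟮t⟯) - C τ) * (h.map (algebraMap 𝕜 𝕜⟮t⟯) - C (-τ))
    with hPP
  have hτ' : Transcendental 𝕜 τ := by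
    intro h0
    exact hτ (h0.algebraMap (A := Ω))
  have hτn : Transcendental 𝕜 (-τ) := by
    have := tr_lin hτ' (ε := (-1 : 𝕜)) (by simp) 0
    simpa using this
  have hsep : PP.Separable := by
    apply Separable.mul (sepOf h hh τ hτ') (sepOf h hh (-τ) hτn)
    have h3 : (2 : 𝕜⟮t⟯) * τ ≠ 0 := by
      apply mul_ne_zero
      · have := (_root_.map_ne_zero (algebraMap 𝕜 𝕜⟮t⟯)).2 h2
        rwa [map_ofNat] at this
      · intro h0
        apply hτ'
        rw [h0]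
        exact isAlgebraic_zero
    refine ⟨-C ((2 * τ)⁻¹), C ((2 * τ)⁻¹), ?_⟩
    have h4 : (C ((2 * τ)⁻¹) * C (2 * τ) : 𝕜⟮t⟯[X]) = 1 := by
      rw [← C_mul, inv_mul_cancel₀ h3, C_1]
    have h5 : (C (2 * τ) : 𝕜⟮t⟯[X]) = 2 * C τ := by
      rw [C_mul]
      rfl
    rw [← h4, h5, C_neg]
    ring
  have hne : PP ≠ 0 := hsep.ne_zero
  have hsplit : (PP.map (algebraMap 𝕜⟮t⟯ Ω)).Splits := by
    rw [hPP, Polynomial.map_mul]
    have h3 : ∀ a : 𝕜⟮t⟯, (h.map (algebraMap 𝕜 𝕜⟮t⟯) - C a).map (algebraMap 𝕜⟮t⟯ Ω) =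
        h.map (algebraMap 𝕜 Ω) - C (a : Ω) := by
      intro a
      rw [Polynomial.map_sub, Polynomial.map_map, map_C, ← IsScalarTower.algebraMap_eq]
      rfl
    rw [h3, h3]
    exact (hspl _ (Or.inl rfl)).mul (hspl _ (Or.inr rfl))
  have hroot := SS_eq_rootSet h τ hne
  rw [← hroot]
  have := IntermediateField.adjoin_rootSet_isSplittingField hsplit
  exact ⟨IsSplittingField.finiteDimensional _ PP, IsGalois.of_separable_splitting_field hsep⟩

end

/-! coefficients from roots -/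

lemma coeff_mem_of_roots {𝕜 Ω : Type} [Field 𝕜] [Field Ω] [Algebra 𝕜 Ω] (A : Subalgebra 𝕜 Ω)
    (r : Multiset Ω) (hr : ∀ β ∈ r, β ∈ A) (i : ℕ) :
    ((r.map fun a => X - C a).prod).coeff i ∈ A := by
  induction r using Multiset.induction_on generalizing i with
  | empty =>
    simp only [Multiset.map_zero, Multiset.prod_zero, coeff_one]
    split_ifs
    · exact Subalgebra.one_mem _
    · exact Subalgebra.zero_mem _
  | cons b r ih =>
    have ih' := ih (fun β hβ => hr β (Multiset.mem_cons_of_mem hβ))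
    rw [Multiset.map_cons, Multiset.prod_cons, sub_mul, coeff_sub, coeff_C_mul]
    refine Subalgebra.sub_mem _ ?_ (Subalgebra.mul_mem _ (hr b (Multiset.mem_cons_self _ _)) (ih' i))
    cases i with
    | zero => rw [coeff_X_mul_zero]; exact Subalgebra.zero_mem _
    | succ i => rw [coeff_X_mul]; exact ih' i

section

variable {𝕜 Ω : Type} [Field 𝕜] [Field Ω] [Algebra 𝕜 Ω] {p k : ℕ}
    {D : Derivation 𝕜 Ω Ω} {t : Ω} {Dg : ℤ → Ω → Prop}

lemma Amb.coeff_of_roots (hA : Amb 𝕜 Ω p k D t Dg) (r : Multiset Ω) (hr : ∀ β ∈ r, Dg 1 β)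
    (i : ℕ) : Dg (Multiset.card r) (((r.map fun a => X - C a).prod).coeff i) := by
  induction r using Multiset.induction_on generalizing i with
  | empty =>
    simp only [Multiset.map_zero, Multiset.prod_zero, coeff_one, Multiset.card_zero]
    split_ifs
    · have := hA.const 1
      simpa using this
    · exact hA.zero _
  | cons b r ih =>
    have ih' := ih (fun β hβ => hr β (Multiset.mem_cons_of_mem hβ))
    rw [Multiset.map_cons, Multiset.prod_cons, sub_mul, coeff_sub, coeff_C_mul]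
    rw [Multiset.card_cons]
    apply hA.sub
    · cases i with
      | zero => rw [coeff_X_mul_zero]; exact hA.zero _
      | succ i => rw [coeff_X_mul]; exact hA.mono (by push_cast; omega) (ih' i)
    · have := hA.mul (hr b (Multiset.mem_cons_self _ _)) (ih' i)
      refine hA.mono ?_ this
      push_cast
      omega

end

lemma Intg.coeff_of_roots {𝕜 Ω : Type} [Field 𝕜] [Field Ω] [Algebra 𝕜 Ω] {t : Ω}
    (r : Multiset Ω) (hr : ∀ β ∈ r, Intg 𝕜 t β) (i : ℕ) :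
    Intg 𝕜 t (((r.map fun a => X - C a).prod).coeff i) := by
  induction r using Multiset.induction_on generalizing i with
  | empty =>
    simp only [Multiset.map_zero, Multiset.prod_zero, coeff_one]
    split_ifs
    · exact Intg.one _
    · exact Intg.zero _
  | cons b r ih =>
    have ih' := ih (fun β hβ => hr β (Multiset.mem_cons_of_mem hβ))
    rw [Multiset.map_cons, Multiset.prod_cons, sub_mul, coeff_sub, coeff_C_mul]
    refine Intg.sub ?_ ((hr b (Multiset.mem_cons_self _ _)).mul (ih' i))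
    cases i with
    | zero => rw [coeff_X_mul_zero]; exact Intg.zero _
    | succ i => rw [coeff_X_mul]; exact ih' i

end Vale.Agent.P042.WA
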