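import Vale.Agent.P042.WA.W3.Den
set_option autoImplicit false

namespace Vale.Agent.P042.WA

open Polynomial IntermediateField

section

variable {𝕜 Ω : Type} [Field 𝕜] [Field Ω] [Algebra 𝕜 Ω] {t : Ω}

/-- value of a bivariate polynomial at a point with coordinates in an extension -/
noncomputable def ev2 (x z : Ω) (F : 𝕜[X][X]) : Ω :=
  eval₂ ((aeval x : 𝕜[X] →ₐ[𝕜] Ω) : 𝕜[X] →+* Ω) z F

lemma ev2_HH (x z : Ω) (h : 𝕜[X]) : ev2 x z (HH h) = aeval x h + aeval z h := by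
  rw [ev2, HH, eval₂_add, eval₂_C, eval₂_map]
  congr 1
  rw [aeval_def]
  congr 1
  ext c
  simp

lemma ev2_root_of_dvd {x z : Ω} {h : 𝕜[X]} {F : 𝕜[X][X]} (hF : F ∣ HH h) (h0 : ev2 x z F = 0) :
    aeval z h = - aeval x h := by
  obtain ⟨G, hG⟩ := hF
  have h1 := ev2_HH x z h
  rw [hG, ev2, eval₂_mul] at h1
  unfold ev2 at h0
  rw [h0, zero_mul] at h1
  linear_combination -h1

lemma ev2_Fr {x z : Ω} (hx : Transcendental 𝕜 x) {F : 𝕜[X][X]} (h0 : ev2 x z F = 0) :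
    eval₂ (jt hx) z (Fr F) = 0 := by
  rw [eval₂_map, jt_comp]
  exact h0

/-- the function field of `F` in `Ω` -/
noncomputable def io {x z : Ω} (hx : Transcendental 𝕜 x) {F : 𝕜[X][X]} (h0 : ev2 x z F = 0) :
    AdjoinRoot (Fr F) →+* Ω := AdjoinRoot.lift (jt hx) z (ev2_Fr hx h0)

lemma io_root {x z : Ω} (hx : Transcendental 𝕜 x) {F : 𝕜[X][X]} (h0 : ev2 x z F = 0) :
    io hx h0 (AdjoinRoot.root (Fr F)) = z := AdjoinRoot.lift_root _

lemma io_of {x z : Ω} (hx : Transcendental 𝕜 x) {F : 𝕜[X][X]} (h0 : ev2 x z F = 0)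
    (φ : RatFunc 𝕜) : io hx h0 (AdjoinRoot.of (Fr F) φ) = jt hx φ := AdjoinRoot.lift_of _

lemma io_poly {x z : Ω} (hx : Transcendental 𝕜 x) {F : 𝕜[X][X]} (h0 : ev2 x z F = 0)
    (P : 𝕜[X]) : io hx h0 (algebraMap 𝕜[X] (AdjoinRoot (Fr F)) P) = aeval x P := by
  have h1 : algebraMap 𝕜[X] (AdjoinRoot (Fr F)) P =
      AdjoinRoot.of (Fr F) (algebraMap 𝕜[X] (RatFunc 𝕜) P) :=
    IsScalarTower.algebraMap_apply 𝕜[X] (RatFunc 𝕜) (AdjoinRoot (Fr F)) P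
  rw [h1, io_of, jt_algebraMap]

/-- every element of `𝕜(t)(x,z)` comes from the function field -/
lemma mem_range_io {x z : Ω} (hx : Transcendental 𝕜 x) {F : 𝕜[X][X]} (hm : F.Monic)
    (hirr : Irreducible F) (h0 : ev2 x z F = 0) {h : 𝕜[X]} (ht : aeval x h = t) {w : Ω}
    (hw : w ∈ adjoin 𝕜⟮t⟯ {x, z}) : ∃ v, io hx h0 v = w := by
  have : Fact (Irreducible (Fr F)) := ⟨Fr_irred hm hirr⟩
  have hpoly : ∀ P : 𝕜[X], ∃ v, io hx h0 v = aeval t P := by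
    intro P
    exact ⟨algebraMap 𝕜[X] (AdjoinRoot (Fr F)) (P.comp h), by rw [io_poly, aeval_comp, ht]⟩
  induction hw using IntermediateField.adjoin_induction with
  | mem y hy =>
    rcases hy with rfl | hy
    · exact ⟨algebraMap 𝕜[X] (AdjoinRoot (Fr F)) X, by rw [io_poly, aeval_X]⟩
    · rw [Set.mem_singleton_iff.1 hy]
      exact ⟨_, io_root hx h0⟩
  | algebraMap y =>
    obtain ⟨r, s, hrs⟩ := (IntermediateField.mem_adjoin_simple_iff 𝕜 (y : Ω)).1 y.2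
    obtain ⟨a, ha⟩ := hpoly r
    obtain ⟨b, hb⟩ := hpoly s
    refine ⟨a / b, ?_⟩
    rw [map_div₀, ha, hb]
    exact hrs.symm
  | add a b _ _ ha hb =>
    obtain ⟨u, rfl⟩ := ha
    obtain ⟨v, rfl⟩ := hb
    exact ⟨u + v, map_add _ _ _⟩
  | inv a _ ha =>
    obtain ⟨u, rfl⟩ := ha
    exact ⟨u⁻¹, map_inv₀ _ _⟩
  | mul a b _ _ ha hb =>
    obtain ⟨u, rfl⟩ := ha
    obtain ⟨v, rfl⟩ := hb
    exact ⟨u * v, map_mul _ _ _⟩

lemma isIntegral_of_io {x z : Ω} (hx : Transcendental 𝕜 x) {F : 𝕜[X][X]} (hm : F.Monic)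
    (hirr : Irreducible F) (h0 : ev2 x z F = 0) {h : 𝕜[X]} (ht : aeval x h = t)
    (v : AdjoinRoot (Fr F)) (hv : Intg 𝕜 t (io hx h0 v)) : IsIntegral 𝕜[X] v := by
  have : Fact (Irreducible (Fr F)) := ⟨Fr_irred hm hirr⟩
  obtain ⟨q, hq, hq0⟩ := hv
  refine ⟨q.map (compRingHom h), hq.map _, ?_⟩
  apply (io hx h0).injective
  rw [map_zero, Polynomial.hom_eval₂, eval₂_map]
  rw [← hq0]
  congr 1
  apply RingHom.ext
  intro P
  simp only [RingHom.comp_apply, coe_compRingHom_apply, RingHom.coe_coe]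
  rw [io_poly, aeval_comp, ht]

/-- STEP A in `Ω`: an integral element of `𝕜(x,z)` lies in `𝕜[x,z][1/δ₁(t)]`. -/
lemma mem_S1 {x z : Ω} (htr : Transcendental 𝕜 t) {h : 𝕜[X]} {F : 𝕜[X][X]} {d : ℕ}
    (hF : GoodFac h F d) (hd : (d : 𝕜) ≠ 0) (hirr : Irreducible F) {χ P : 𝕜[X]}
    (hχ0 : χ ≠ 0) (hχ : χ.comp h = P * h.derivative) (h0 : ev2 x z F = 0) (ht : aeval x h = t)
    {w : Ω} (hw : w ∈ adjoin 𝕜⟮t⟯ {x, z}) (hwi : Intg 𝕜 t w) :
    w ∈ Algebra.adjoin 𝕜 (insert (aeval t (del1 χ))⁻¹ {x, z}) := by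
  have hx : Transcendental 𝕜 x := tr_root htr h ht
  obtain ⟨v, rfl⟩ := mem_range_io hx hF.monic hirr h0 ht hw
  have hvi := isIntegral_of_io hx hF.monic hirr h0 ht v hwi
  have h1 := stepA hF hd hirr hχ v hvi
  have hxz : ∀ P : 𝕜[X], aeval x P ∈ Algebra.adjoin 𝕜 (insert (aeval t (del1 χ))⁻¹ {x, z}) := by
    intro P
    have h1 : Algebra.adjoin 𝕜 {x} ≤ Algebra.adjoin 𝕜 (insert (aeval t (del1 χ))⁻¹ {x, z}) := by
      apply Algebra.adjoin_le
      intro y hy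
      rw [Set.mem_singleton_iff.1 hy]
      exact Algebra.subset_adjoin (Set.mem_insert_of_mem _ (Set.mem_insert _ _))
    exact h1 (aeval_mem_adjoin_singleton 𝕜 x)
  have h2 : ∀ f ∈ Algebra.adjoin 𝕜[X] {AdjoinRoot.root (Fr F)},
      io hx h0 f ∈ Algebra.adjoin 𝕜 (insert (aeval t (del1 χ))⁻¹ {x, z}) := by
    intro f hf
    induction hf using Algebra.adjoin_induction with
    | mem y hy =>
      rw [Set.mem_singleton_iff.1 hy, io_root]
      exact Algebra.subset_adjoin (Set.mem_insert_of_mem _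
        (Set.mem_insert_of_mem _ (Set.mem_singleton _)))
    | algebraMap P => rw [io_poly]; exact hxz P
    | add a b _ _ ha hb => rw [map_add]; exact Subalgebra.add_mem _ ha hb
    | mul a b _ _ ha hb => rw [map_mul]; exact Subalgebra.mul_mem _ ha hb
  have h3 := h2 _ h1
  rw [map_mul, map_pow, io_poly, aeval_comp, map_neg, ht] at h3
  have hδ : aeval t (del1 χ) = aeval t χ * aeval (-t) χ := aeval_del1 χ
  have htn : Transcendental 𝕜 (-t) := by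
    have := tr_lin htr (ε := (-1 : 𝕜)) (by simp) 0
    simpa using this
  have hne : aeval (-t) χ ≠ 0 := fun h0 => hχ0 ((transcendental_iff.1 htn) χ h0)
  have hne' : aeval t χ ≠ 0 := fun h0 => hχ0 ((transcendental_iff.1 htr) χ h0)
  have h4 : (aeval (-t) χ)⁻¹ ∈ Algebra.adjoin 𝕜 (insert (aeval t (del1 χ))⁻¹ {x, z}) := by
    have h5 : (aeval (-t) χ)⁻¹ = aeval t χ * (aeval t (del1 χ))⁻¹ := by
      rw [hδ]
      field_simp
    rw [h5]
    refine Subalgebra.mul_mem _ ?_ (Algebra.subset_adjoin (Set.mem_insert _ _))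
    have h6 := hxz (χ.comp h)
    rw [aeval_comp, ht] at h6
    exact h6
  have h5 : io hx h0 v = (aeval (-t) χ)⁻¹ ^ d * ((aeval (-t) χ) ^ d * io hx h0 v) := by
    rw [← mul_assoc, ← mul_pow, inv_mul_cancel₀ hne, one_pow, one_mul]
  rw [h5]
  exact Subalgebra.mul_mem _ (Subalgebra.pow_mem _ h4 d) h3

end

end Vale.Agent.P042.WA
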