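import Vale.Agent.P042.WA.W3.Amb
import Mathlib.Algebra.CharP.Defs
set_option autoImplicit false

namespace Vale.Agent.P042.WA

open Polynomial IntermediateField

lemma exists_antideriv {𝕜 : Type} [Field 𝕜] {p : ℕ} [CharP 𝕜 p] (P : 𝕜[X])
    (hP : P.natDegree + 1 < p) : ∃ Q : 𝕜[X], Q.derivative = P ∧ Q.natDegree ≤ P.natDegree + 1 := by
  refine ⟨∑ i ∈ Finset.range (P.natDegree + 1), monomial (i + 1) (P.coeff i / ((i + 1 : ℕ) : 𝕜)),
    ?_, ?_⟩
  · rw [derivative_sum]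
    conv_rhs => rw [P.as_sum_range]
    apply Finset.sum_congr rfl
    intro i hi
    have h0 : ((i + 1 : ℕ) : 𝕜) ≠ 0 := by
      intro h0
      rw [CharP.cast_eq_zero_iff 𝕜 p] at h0
      have := Nat.le_of_dvd (Nat.succ_pos i) h0
      have := Finset.mem_range.1 hi
      omega
    rw [derivative_monomial, Nat.add_sub_cancel, div_mul_cancel₀ _ h0]
  · apply natDegree_sum_le_of_forall_le
    intro i hi
    refine (natDegree_monomial_le _).trans ?_
    have := Finset.mem_range.1 hi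
    omega

section

variable {𝕜 Ω : Type} [Field 𝕜] [Field Ω] [Algebra 𝕜 Ω] {p k : ℕ}
    {D : Derivation 𝕜 Ω Ω} {t : Ω} {Dg : ℤ → Ω → Prop}

lemma intg_conj (E : IntermediateField 𝕜⟮t⟯ Ω) (σ : E ≃ₐ[𝕜⟮t⟯] E) (f : E)
    (hf : Intg 𝕜 t (f : Ω)) : Intg 𝕜 t ((σ f : E) : Ω) := by
  obtain ⟨q, hq, hq0⟩ := hf
  refine ⟨q, hq, ?_⟩
  set i : 𝕜[X] →+* 𝕜⟮t⟯ :=
    ((aeval (AdjoinSimple.gen 𝕜 t) : 𝕜[X] →ₐ[𝕜] 𝕜⟮t⟯) : 𝕜[X] →+* 𝕜⟮t⟯) with hi
  have h1 : ((aeval t : 𝕜[X] →ₐ[𝕜] Ω) : 𝕜[X] →+* Ω) =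
      (algebraMap E Ω).comp ((algebraMap 𝕜⟮t⟯ E).comp i) := by
    apply RingHom.ext
    intro P
    simp only [hi, RingHom.comp_apply, RingHom.coe_coe]
    rw [← IsScalarTower.algebraMap_apply, ← aeval_algebraMap_apply]
    simp
  rw [h1] at hq0 ⊢
  have h2 : (f : Ω) = algebraMap E Ω f := rfl
  rw [h2, ← Polynomial.hom_eval₂] at hq0
  have h3 := (map_eq_zero (algebraMap E Ω)).1 hq0
  have h4 := congrArg σ h3
  rw [map_zero] at h4
  have h5 : σ (eval₂ ((algebraMap 𝕜⟮t⟯ E).comp i) f q) =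
      eval₂ ((algebraMap 𝕜⟮t⟯ E).comp i) (σ f) q := by
    have := Polynomial.hom_eval₂ q ((algebraMap 𝕜⟮t⟯ E).comp i) (σ : E →+* E) f
    have h6 : (σ : E →+* E).comp ((algebraMap 𝕜⟮t⟯ E).comp i) = (algebraMap 𝕜⟮t⟯ E).comp i := by
      apply RingHom.ext
      intro P
      simp only [RingHom.comp_apply]
      exact σ.commutes _
    rw [h6] at this
    exact this
  rw [h5] at h4
  have h7 : ((σ f : E) : Ω) = algebraMap E Ω (σ f) := rfl
  rw [h7, ← Polynomial.hom_eval₂, h4, map_zero]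

/-- an element integral over `𝕜[t]` of degree `≤ 0` at all places at infinity is constant -/
lemma Amb.L0 (hA : Amb 𝕜 Ω p k D t Dg) (E : IntermediateField 𝕜⟮t⟯ Ω)
    [FiniteDimensional 𝕜⟮t⟯ E] [IsGalois 𝕜⟮t⟯ E] (f : E) (hf : Intg 𝕜 t (f : Ω))
    (hdeg : ∀ σ : E ≃ₐ[𝕜⟮t⟯] E, Dg 0 ((σ f : E) : Ω)) :
    ∃ c : 𝕜, (f : Ω) = algebraMap 𝕜 Ω c := by
  classical
  have hf0 : Dg 0 (f : Ω) := by
    have := hdeg AlgEquiv.refl
    simpa using this
  obtain ⟨c, hc⟩ := hA.lead hf0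
  refine ⟨c, ?_⟩
  set cE : E := algebraMap 𝕜⟮t⟯ E (algebraMap 𝕜 𝕜⟮t⟯ c) with hcE
  have hcE' : (cE : Ω) = algebraMap 𝕜 Ω c := rfl
  set g : E := f - cE with hg
  have hgσ : ∀ σ : E ≃ₐ[𝕜⟮t⟯] E, Dg 0 ((σ g : E) : Ω) := by
    intro σ
    have h1 : σ g = σ f - cE := by rw [hg, map_sub, hcE, σ.commutes]
    rw [h1]
    push_cast
    rw [hcE']
    exact hA.sub (hdeg σ) (hA.const c)
  have hg1 : Dg (-1) (g : Ω) := by
    rw [hg]; push_cast; rw [hcE']; exact hc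
  have hgi : Intg 𝕜 t (g : Ω) := by
    rw [hg]; push_cast; rw [hcE']; exact hf.sub (Intg.const t c)
  -- the norm
  set N : E := ∏ σ : E ≃ₐ[𝕜⟮t⟯] E, σ g with hN
  have hNfix : ∀ τ : E ≃ₐ[𝕜⟮t⟯] E, τ N = N := by
    intro τ
    rw [hN, map_prod]
    exact Fintype.prod_bijective (fun σ : E ≃ₐ[𝕜⟮t⟯] E => τ * σ) (Group.mulLeft_bijective τ) _ _
      (fun σ => rfl)
  obtain ⟨N0, hN0⟩ := (IsGalois.mem_range_algebraMap_iff_fixed (F := 𝕜⟮t⟯) (E := E) N).2 hNfix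
  have hNmem : (N : Ω) ∈ 𝕜⟮t⟯ := by
    rw [← hN0]
    exact N0.2
  have hNcoe : (N : Ω) = ∏ σ : E ≃ₐ[𝕜⟮t⟯] E, ((σ g : E) : Ω) := by
    rw [hN]
    exact map_prod (algebraMap E Ω) _ _
  have hNi : Intg 𝕜 t (N : Ω) := by
    rw [hNcoe]
    exact Intg.prod _ _ fun σ _ => intg_conj E σ g hgi
  obtain ⟨P, hP⟩ := poly_of_intg hA.tr hNmem hNi
  have hNdeg : Dg (-1) (N : Ω) := by
    rw [hNcoe, ← Finset.mul_prod_erase Finset.univ _ (Finset.mem_univ (AlgEquiv.refl))]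
    have h2 : Dg 0 (∏ σ ∈ Finset.univ.erase (AlgEquiv.refl : E ≃ₐ[𝕜⟮t⟯] E), ((σ g : E) : Ω)) := by
      generalize Finset.univ.erase (AlgEquiv.refl : E ≃ₐ[𝕜⟮t⟯] E) = s
      induction s using Finset.induction_on with
      | empty => have := hA.const 1; simpa using this
      | insert a s ha ih =>
        rw [Finset.prod_insert ha]
        have := hA.mul (hgσ a) ih
        simpa using this
    have h3 := hA.mul hg1 h2
    simpa using h3
  have hP0 : P = 0 := by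
    by_contra h0
    have h1 := hA.poly P (-1) h0 (by rw [hP]; exact hNdeg)
    have : (0 : ℤ) ≤ (k : ℤ) * P.natDegree := by positivity
    omega
  rw [hP0, map_zero] at hP
  rw [hNcoe] at hP
  obtain ⟨σ, _, hσ⟩ := Finset.prod_eq_zero_iff.1 hP.symm
  have h4 : σ g = 0 := by
    apply (algebraMap E Ω).injective
    rw [map_zero]; exact hσ
  have h5 : g = 0 := (map_eq_zero_iff σ σ.injective).1 h4
  have h6 : (g : Ω) = 0 := by rw [h5]; rfl
  rw [hg] at h6
  push_cast at h6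
  rw [hcE'] at h6
  exact sub_eq_zero.1 h6

/-- KEY: an element all of whose derivatives are integral, of small degree, is a polynomial. -/
lemma Amb.key [CharP 𝕜 p] (hA : Amb 𝕜 Ω p k D t Dg) (hk : 1 ≤ k) (E : IntermediateField 𝕜⟮t⟯ Ω)
    [FiniteDimensional 𝕜⟮t⟯ E] [IsGalois 𝕜⟮t⟯ E]
    (hDE : ∀ f : E, ∃ g : E, D (f : Ω) = g ∧
      ∀ σ : E ≃ₐ[𝕜⟮t⟯] E, D ((σ f : E) : Ω) = ((σ g : E) : Ω)) (n : ℕ) :
    n < p → ∀ w : E, (∀ m, Intg 𝕜 t (D^[m] (w : Ω))) →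
      (∀ σ : E ≃ₐ[𝕜⟮t⟯] E, Dg n ((σ w : E) : Ω)) → ∃ P : 𝕜[X], aeval t P = (w : Ω) := by
  induction n using Nat.strong_induction_on with
  | _ n ih =>
    intro hnp w hw hdeg
    rcases Nat.eq_zero_or_pos n with hn | hn
    · subst hn
      obtain ⟨c, hc⟩ := hA.L0 E w (by simpa using hw 0) (by simpa using hdeg)
      exact ⟨C c, by rw [aeval_C, hc]⟩
    · obtain ⟨g, hg, hgσ⟩ := hDE w
      have hgi : ∀ m, Intg 𝕜 t (D^[m] (g : Ω)) := by
        intro m
        have := hw (m + 1)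
        rw [Function.iterate_succ_apply, hg] at this
        exact this
      have hgd : ∀ σ : E ≃ₐ[𝕜⟮t⟯] E, Dg ((n : ℤ) - k) ((σ g : E) : Ω) := by
        intro σ
        rw [← hgσ σ]
        exact hA.der (hdeg σ)
      have hgd' : ∀ σ : E ≃ₐ[𝕜⟮t⟯] E, Dg ((n - k : ℕ) : ℤ) ((σ g : E) : Ω) := by
        intro σ
        exact hA.mono (by omega) (hgd σ)
      obtain ⟨P, hP⟩ := ih (n - k) (by omega) (by omega) g hgi hgd'
      -- antiderivative
      obtain ⟨Q, hQ, hQd⟩ : ∃ Q : 𝕜[X], Q.derivative = P ∧ Dg n (aeval t Q) := by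
        by_cases hP0 : P = 0
        · refine ⟨0, by rw [hP0, derivative_zero], ?_⟩
          rw [map_zero]
          exact hA.zero _
        · have hg1 : Dg ((n : ℤ) - k) (g : Ω) := by
            have := hgd AlgEquiv.refl
            simpa using this
          have h1 := hA.poly P ((n : ℤ) - k) hP0 (by rw [hP]; exact hg1)
          have h2 : k * (P.natDegree + 1) ≤ n := by
            zify
            linarith
          have h3 : P.natDegree + 1 ≤ k * (P.natDegree + 1) := Nat.le_mul_of_pos_left _ hk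
          obtain ⟨Q, hQ, hQd⟩ := exists_antideriv (p := p) P (by omega)
          refine ⟨Q, hQ, ?_⟩
          have h4 := hA.dg_aeval (by positivity) hA.dgt Q
          refine hA.mono ?_ h4
          have h5 : Q.natDegree * k ≤ n := by
            calc Q.natDegree * k ≤ (P.natDegree + 1) * k := Nat.mul_le_mul_right _ hQd
              _ = k * (P.natDegree + 1) := by ring
              _ ≤ n := h2
          exact_mod_cast h5
      -- the element aeval t Q in E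
      set QE : E := algebraMap 𝕜⟮t⟯ E (aeval (AdjoinSimple.gen 𝕜 t) Q) with hQE
      have hQE' : (QE : Ω) = aeval t Q := by
        have : (QE : Ω) = algebraMap 𝕜⟮t⟯ Ω (aeval (AdjoinSimple.gen 𝕜 t) Q) := rfl
        rw [this, ← aeval_algebraMap_apply]
        simp
      set f : E := w - QE with hf
      have hfc : (f : Ω) = (w : Ω) - aeval t Q := by rw [hf]; push_cast; rw [hQE']
      have hfσ : ∀ σ : E ≃ₐ[𝕜⟮t⟯] E, ((σ f : E) : Ω) = ((σ w : E) : Ω) - aeval t Q := by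
        intro σ
        have h1 : σ f = σ w - QE := by rw [hf, map_sub, hQE, σ.commutes]
        rw [h1]; push_cast; rw [hQE']
      have hDQ : D (aeval t Q) = (g : Ω) := by
        rw [D_aeval, hQ, hP, hA.Dt, mul_one]
      have hσg : ∀ σ : E ≃ₐ[𝕜⟮t⟯] E, ((σ g : E) : Ω) = (g : Ω) := by
        intro σ
        have h1 : g = algebraMap 𝕜⟮t⟯ E (aeval (AdjoinSimple.gen 𝕜 t) P) := by
          apply (algebraMap E Ω).injective
          have h2 : algebraMap E Ω (algebraMap 𝕜⟮t⟯ E (aeval (AdjoinSimple.gen 𝕜 t) P)) =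
            algebraMap 𝕜⟮t⟯ Ω (aeval (AdjoinSimple.gen 𝕜 t) P) := rfl
          rw [h2, ← aeval_algebraMap_apply]
          simp only [AdjoinSimple.algebraMap_gen]
          exact hP.symm
        rw [h1, σ.commutes]
      have hker : ∀ σ : E ≃ₐ[𝕜⟮t⟯] E, Dg 0 ((σ f : E) : Ω) := by
        intro σ
        apply hA.ker (n := n) (by exact_mod_cast hnp)
        · rw [hfσ, map_sub, hgσ σ, hDQ, hσg, sub_self]
        · rw [hfσ]
          exact hA.sub (hdeg σ) hQd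
      have hfi : Intg 𝕜 t (f : Ω) := by
        rw [hfc]
        exact (by simpa using hw 0 : Intg 𝕜 t (w : Ω)).sub (Intg.poly t Q)
      obtain ⟨c, hc⟩ := hA.L0 E f hfi hker
      refine ⟨Q + C c, ?_⟩
      rw [map_add, aeval_C, ← hc, hfc]
      ring

end

end Vale.Agent.P042.WA
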