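import Vale.Agent.P042.WA.W3.Prim
set_option autoImplicit false

namespace Vale.Agent.P042.WA

open Polynomial IntermediateField

/-- tower step: injectivity of `R[X]/G → Ω` -/
lemma lift_injective {R Ω L : Type} [CommRing R] [Field Ω] [Field L] [Algebra L Ω]
    (i : R →+* Ω) (hi : Function.Injective i) (G : R[X]) (v : R) (hG : (C v * G).Monic)
    (y : Ω) (hy : G.eval₂ i y = 0)
    (hL : ∀ r : R, ∃ l : L, algebraMap L Ω l = i r)
    (hdeg : (C v * G).natDegree ≤ (minpoly L y).natDegree) :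
    Function.Injective (AdjoinRoot.lift i y hy) := by
  rw [injective_iff_map_eq_zero]
  intro f hf
  obtain ⟨g, rfl⟩ := AdjoinRoot.mk_surjective f
  have h1 : AdjoinRoot.mk G g = AdjoinRoot.mk G (g %ₘ (C v * G)) := by
    rw [AdjoinRoot.mk_eq_mk]
    have h2 := modByMonic_add_div g (C v * G)
    refine ⟨C v * (g /ₘ (C v * G)), ?_⟩
    linear_combination -h2
  rw [h1] at hf ⊢
  set q := g %ₘ (C v * G) with hq
  rw [AdjoinRoot.lift_mk] at hf
  have h3 : q.map i ∈ Polynomial.lifts (algebraMap L Ω) := by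
    rw [Polynomial.lifts_iff_coeff_lifts]
    intro j
    rw [coeff_map]
    exact hL _
  obtain ⟨q', hq'⟩ := (Polynomial.mem_lifts _).1 h3
  have h4 : aeval y q' = 0 := by
    rw [← eval_map_algebraMap, hq', eval_map]
    exact hf
  have hne1 : C v * G ≠ 1 := by
    intro h0
    have h5 : eval₂ i y (C v * G) = 0 := by rw [eval₂_mul, hy, mul_zero]
    rw [h0, eval₂_one] at h5
    exact one_ne_zero h5
  have h5 : q.natDegree < (C v * G).natDegree := natDegree_modByMonic_lt g hG hne1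
  have h6 : q' = 0 := by
    by_contra h0
    have h7 := natDegree_le_of_dvd (minpoly.dvd L y h4) h0
    have h8 : q'.natDegree = q.natDegree := by
      rw [← natDegree_map (algebraMap L Ω) (p := q'), hq', natDegree_map_eq_of_injective hi]
    omega
  rw [h6, Polynomial.map_zero] at hq'
  have h7 : q = 0 := by
    apply Polynomial.map_injective i hi
    rw [← hq', Polynomial.map_zero]
  rw [h7, map_zero]

section

variable {𝕜 Ω : Type} [Field 𝕜] [Field Ω] [Algebra 𝕜 Ω] {p k : ℕ}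
    {D : Derivation 𝕜 Ω Ω} {t : Ω} {Dg : ℤ → Ω → Prop}

/-- irreducibility of `C_s`, given the ambient field -/
lemma domain_of_amb [IsAlgClosed 𝕜] [CharP 𝕜 p] (hA : Amb 𝕜 Ω p k D t Dg)
    {h : 𝕜[X]} {F : 𝕜[X][X]} {d : ℕ} (hF : GoodFac h F d) (hd : (d : 𝕜) ≠ 0)
    (hirr : Irreducible F) (hh : h.derivative ≠ 0) (hdeg : h.natDegree = k) (hk : 1 ≤ k)
    (hkd : k * d < p)
    (h2 : (2 : 𝕜) ≠ 0) {s : 𝕜} (hs : ¬ Bad h s)
    {x z x' z' : Ω} (hx : aeval x h = t) (hz : ev2 x z F = 0)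
    (hx' : aeval x' h = t + algebraMap 𝕜 Ω s) (hz' : ev2 x' z' F = 0)
    (hspl : ∀ a : Ω, (a = t + algebraMap 𝕜 Ω s ∨ a = -(t + algebraMap 𝕜 Ω s)) →
      (h.map (algebraMap 𝕜 Ω) - C a).Splits)
    (hdg : ∀ α ∈ SS h (t + algebraMap 𝕜 Ω s), Dg 1 α) : IsDomain (R3 h F s) := by
  obtain ⟨hN1, hN2⟩ := deg_over_M hA hF hd hirr hh hdeg hk hkd h2 hs hx hz hx' hz' hspl hdg
  have htr := hA.tr
  have hxtr : Transcendental 𝕜 x := tr_root htr h hx
  set M := adjoin 𝕜⟮t⟯ {x, z} with hM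
  have hSTM : IsScalarTower 𝕜 M Ω := IsScalarTower.of_algebraMap_eq fun x => rfl
  have hSTM' : IsScalarTower 𝕜 M⟮x'⟯ Ω := IsScalarTower.of_algebraMap_eq fun x => rfl
  -- stage 1
  have hSTx : IsScalarTower 𝕜 𝕜⟮x⟯ Ω := inferInstance
  obtain ⟨hzint, hzle⟩ := deg_z_le (L := 𝕜⟮x⟯) (Ω := Ω) hF (AdjoinSimple.gen 𝕜 x) rfl hz
  have hzge := natDegree_le_minpoly (L := 𝕜⟮x⟯) (jt hxtr) _ (Fr_irred hF.monic hirr) (z := z)
    (ev2_Fr hxtr hz) (fun a => (mem_adjoin_iff hxtr (a : Ω)).1 a.2) hzint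
  rw [hF.monic.natDegree_map] at hzge
  set i0 : 𝕜[X] →+* Ω := ((aeval x : 𝕜[X] →ₐ[𝕜] Ω) : 𝕜[X] →+* Ω) with hi0
  have hi0inj : Function.Injective i0 := inj_aeval hxtr
  have hz0 : F.eval₂ i0 z = 0 := hz
  set i1 : R1 F →+* Ω := AdjoinRoot.lift i0 z hz0 with hi1
  have hi1inj : Function.Injective i1 := by
    refine lift_injective (L := 𝕜⟮x⟯) i0 hi0inj F 1 (by rw [C_1, one_mul]; exact hF.monic) z hz0 ?_
      (by rw [C_1, one_mul]; exact hzge)
    intro P
    exact ⟨aeval (AdjoinSimple.gen 𝕜 x) P, by rw [← aeval_algebraMap_apply]; rfl⟩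
  -- i1 on generators
  have hi1c : i1.comp (algebraMap 𝕜 (R1 F)) = algebraMap 𝕜 Ω := by
    ext c
    have : algebraMap 𝕜 (R1 F) c = AdjoinRoot.of F (C c) := rfl
    rw [RingHom.comp_apply, this, hi1, AdjoinRoot.lift_of, hi0]
    simp
  have hi1x : i1 (x1 F) = x := by
    rw [x1, hi1, AdjoinRoot.lift_of, hi0]
    simp
  have hi1p : ∀ P : 𝕜[X], i1 (aeval (x1 F) P) = aeval x P := by
    intro P
    rw [aeval_def, Polynomial.hom_eval₂, hi1c, hi1x, aeval_def]
  -- stage 2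
  have hG2 : (G2 h F s).eval₂ i1 x' = 0 := by
    rw [G2, eval₂_sub, eval₂_C, eval₂_map, hi1c, ← aeval_def, hx', map_add, hi1p, hx]
    have : i1 (algebraMap 𝕜 (R1 F) s) = algebraMap 𝕜 Ω s := by
      rw [← RingHom.comp_apply, hi1c]
    rw [this, sub_self]
  have hR1nt : Nontrivial (R1 F) := by
    refine ⟨⟨0, 1, ?_⟩⟩
    intro h0
    have := congrArg i1 h0
    rw [map_zero, map_one] at this
    exact zero_ne_one this
  have hlc : h.leadingCoeff ≠ 0 := by
    intro h0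
    rw [leadingCoeff_eq_zero] at h0
    rw [h0, natDegree_zero] at hdeg
    omega
  have hG2nd : (G2 h F s).natDegree = k := by
    rw [G2, natDegree_sub_C, natDegree_map_eq_of_injective (FaithfulSMul.algebraMap_injective _ _),
      hdeg]
  have hG2lc : (G2 h F s).leadingCoeff = algebraMap 𝕜 (R1 F) h.leadingCoeff := by
    rw [leadingCoeff, hG2nd, G2, coeff_sub, coeff_map, coeff_C, if_neg (by omega), sub_zero,
      ← hdeg]
    rfl
  have hG2m : (C (algebraMap 𝕜 (R1 F) (h.leadingCoeff⁻¹)) * G2 h F s).Monic := by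
    apply monic_C_mul_of_mul_leadingCoeff_eq_one
    rw [hG2lc, ← map_mul, inv_mul_cancel₀ hlc, map_one]
  have hG2nd' : (C (algebraMap 𝕜 (R1 F) (h.leadingCoeff⁻¹)) * G2 h F s).natDegree = k := by
    rw [natDegree_C_mul_of_mul_ne_zero, hG2nd]
    rw [hG2lc, ← map_mul, inv_mul_cancel₀ hlc, map_one]
    exact one_ne_zero
  set i2 : R2 h F s →+* Ω := AdjoinRoot.lift i1 x' hG2 with hi2
  have hi1M : ∀ r : R1 F, i1 r ∈ M := by
    intro r
    obtain ⟨g, rfl⟩ := AdjoinRoot.mk_surjective r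
    rw [hi1, AdjoinRoot.lift_mk, eval₂_eq_sum_range]
    apply sum_mem
    intro j _
    apply mul_mem
    · have hxM : x ∈ M := subset_adjoin _ _ (Set.mem_insert _ _)
      have : i0 (g.coeff j) = algebraMap M Ω (aeval (⟨x, hxM⟩ : M) (g.coeff j)) := by
        rw [← aeval_algebraMap_apply]
        rfl
      rw [this]
      exact (aeval (⟨x, hxM⟩ : M) (g.coeff j)).2
    · exact pow_mem (subset_adjoin _ _ (Set.mem_insert_of_mem _ (Set.mem_singleton _))) _
  have hi2inj : Function.Injective i2 :=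
    lift_injective (L := M) i1 hi1inj _ _ hG2m x' hG2 (fun r => ⟨⟨i1 r, hi1M r⟩, rfl⟩)
      (by rw [hG2nd', hN1])
  have hR2nt : Nontrivial (R2 h F s) := by
    refine ⟨⟨0, 1, ?_⟩⟩
    intro h0
    have := congrArg i2 h0
    rw [map_zero, map_one] at this
    exact zero_ne_one this
  -- stage 3
  have hi2c : i2.comp (algebraMap 𝕜 (R2 h F s)) = algebraMap 𝕜 Ω := by
    ext c
    have : algebraMap 𝕜 (R2 h F s) c = AdjoinRoot.of (G2 h F s) (algebraMap 𝕜 (R1 F) c) := rfl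
    rw [RingHom.comp_apply, this, hi2, AdjoinRoot.lift_of, ← RingHom.comp_apply, hi1c]
  have hi2r : i2 (AdjoinRoot.root (G2 h F s)) = x' := by rw [hi2, AdjoinRoot.lift_root]
  have hcomp : i2.comp (eval₂RingHom (algebraMap 𝕜 (R2 h F s)) (AdjoinRoot.root (G2 h F s))) =
      ((aeval x' : 𝕜[X] →ₐ[𝕜] Ω) : 𝕜[X] →+* Ω) := by
    apply RingHom.ext
    intro P
    rw [RingHom.comp_apply, coe_eval₂RingHom, Polynomial.hom_eval₂, hi2c, hi2r]
    rfl
  have hG3 : (G3 h F s).eval₂ i2 z' = 0 := by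
    rw [G3, eval₂_map, hcomp]
    exact hz'
  have hG3m : (G3 h F s).Monic := hF.monic.map _
  have hG3nd : (G3 h F s).natDegree = d := by
    rw [G3, hF.monic.natDegree_map, hF.deg]
  set i3 : R3 h F s →+* Ω := AdjoinRoot.lift i2 z' hG3 with hi3
  have hi2M : ∀ r : R2 h F s, i2 r ∈ M⟮x'⟯ := by
    intro r
    obtain ⟨g, rfl⟩ := AdjoinRoot.mk_surjective r
    rw [hi2, AdjoinRoot.lift_mk, eval₂_eq_sum_range]
    apply sum_mem
    intro j _
    apply mul_mem
    · have : i1 (g.coeff j) = algebraMap M Ω ⟨_, hi1M (g.coeff j)⟩ := rfl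
      rw [this]
      exact IntermediateField.algebraMap_mem _ _
    · exact pow_mem (mem_adjoin_simple_self _ _) _
  have hi3inj : Function.Injective i3 := by
    refine lift_injective (L := M⟮x'⟯) i2 hi2inj _ 1 (by rw [C_1, one_mul]; exact hG3m) z' hG3
      (fun r => ⟨⟨i2 r, hi2M r⟩, rfl⟩) (by rw [C_1, one_mul, hG3nd, hN2])
  exact hi3inj.isDomain i3

end

end Vale.Agent.P042.WA
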