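import Vale.Agent.P042.WA.W3.Amb
import Mathlib.RingTheory.LaurentSeries
set_option autoImplicit false

namespace Vale.Agent.P042.WA

open Polynomial

section hahn

variable {𝕜 : Type} [Field 𝕜]

/-- Euler derivation on Hahn series -/
noncomputable def th0 (f : HahnSeries ℤ 𝕜) : HahnSeries ℤ 𝕜 :=
  HahnSeries.mk (fun n : ℤ => (n : 𝕜) * f.coeff n)
    (by
      apply (HahnSeries.isPWO_support f).mono
      intro n hn
      rw [HahnSeries.mem_support]
      intro h0
      apply hn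
      simp [h0])

lemma th0_coeff (f : HahnSeries ℤ 𝕜) (n : ℤ) : (th0 f).coeff n = (n : 𝕜) * f.coeff n := rfl

lemma th0_support (f : HahnSeries ℤ 𝕜) : (th0 f).support ⊆ f.support := by
  intro m hm
  rw [HahnSeries.mem_support] at hm ⊢
  intro h0
  apply hm
  rw [th0_coeff, h0, mul_zero]

lemma th0_mul (f g : HahnSeries ℤ 𝕜) : th0 (f * g) = f * th0 g + g * th0 f := by
  ext n
  rw [th0_coeff, HahnSeries.coeff_add, mul_comm g, HahnSeries.coeff_mul,
    HahnSeries.coeff_mul_left' f.isPWO_support (th0_support f),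
    HahnSeries.coeff_mul_right' g.isPWO_support (th0_support g), Finset.mul_sum,
    ← Finset.sum_add_distrib]
  apply Finset.sum_congr rfl
  intro ij hij
  have h1 := (Finset.mem_antidiagonal.1 hij).2.2
  rw [th0_coeff, th0_coeff, ← h1]
  push_cast
  ring

lemma hahn_mul_zero {n m : ℤ} {f g : HahnSeries ℤ 𝕜} (hf : ∀ i < -n, f.coeff i = 0)
    (hg : ∀ i < -m, g.coeff i = 0) : ∀ i < -(n + m), (f * g).coeff i = 0 := by
  intro i hi
  rw [HahnSeries.coeff_mul]
  apply Finset.sum_eq_zero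
  intro ij hij
  have h1 := (Finset.mem_antidiagonal.1 hij).2.2
  by_cases h2 : ij.1 < -n
  · rw [hf _ h2, zero_mul]
  · rw [hg _ (by omega), mul_zero]

end hahn

/-- Laurent series at infinity, with the plain field and algebra structures -/
def Om (𝕜 : Type) [Field 𝕜] : Type := HahnSeries ℤ 𝕜

noncomputable instance (𝕜 : Type) [Field 𝕜] : Field (Om 𝕜) :=
  inferInstanceAs (Field (HahnSeries ℤ 𝕜))

noncomputable instance (𝕜 : Type) [Field 𝕜] : Algebra 𝕜 (Om 𝕜) :=
  (HahnSeries.C : 𝕜 →+* HahnSeries ℤ 𝕜).toAlgebra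

section

variable {𝕜 : Type} [Field 𝕜]

/-- coefficient -/
def cf (f : Om 𝕜) (i : ℤ) : 𝕜 := HahnSeries.coeff (f : HahnSeries ℤ 𝕜) i

/-- monomial -/
noncomputable def sg (n : ℤ) (c : 𝕜) : Om 𝕜 := (HahnSeries.single n c : HahnSeries ℤ 𝕜)

lemma cf_ext {f g : Om 𝕜} (h : ∀ i, cf f i = cf g i) : f = g := HahnSeries.ext (funext h)

lemma cf_add (f g : Om 𝕜) (i : ℤ) : cf (f + g) i = cf f i + cf g i := rfl

lemma cf_sub (f g : Om 𝕜) (i : ℤ) : cf (f - g) i = cf f i - cf g i := rfl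

lemma cf_zero (i : ℤ) : cf (0 : Om 𝕜) i = 0 := rfl

lemma cf_sg (n : ℤ) (c : 𝕜) (i : ℤ) : cf (sg n c) i = if i = n then c else 0 := by
  classical
  unfold cf sg
  rw [HahnSeries.coeff_single]
  congr

lemma algMap_eq (c : 𝕜) : algebraMap 𝕜 (Om 𝕜) c = sg 0 c := rfl

lemma cf_sg_mul (n : ℤ) (c : 𝕜) (f : Om 𝕜) (i : ℤ) : cf (sg n c * f) i = c * cf f (i - n) :=
  HahnSeries.coeff_single_mul (R := 𝕜) (Γ' := ℤ)

lemma cf_const_mul (c : 𝕜) (f : Om 𝕜) (i : ℤ) : cf (algebraMap 𝕜 (Om 𝕜) c * f) i = c * cf f i := by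
  rw [algMap_eq, cf_sg_mul, sub_zero]

lemma sg_mul_sg (n m : ℤ) (a b : 𝕜) : sg n a * sg m b = sg (n + m) (a * b) :=
  HahnSeries.single_mul_single

lemma sg_one : (sg 0 1 : Om 𝕜) = 1 := rfl

lemma sg_pow (n : ℤ) (i : ℕ) : (sg n 1 : Om 𝕜) ^ i = sg (i * n) 1 := by
  induction i with
  | zero => rw [pow_zero, ← sg_one]; simp
  | succ i ih => rw [pow_succ, ih, sg_mul_sg, one_mul]; congr 1; push_cast; ring

/-- Euler derivation -/
noncomputable def th (f : Om 𝕜) : Om 𝕜 := th0 f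

lemma cf_th (f : Om 𝕜) (i : ℤ) : cf (th f) i = (i : 𝕜) * cf f i := rfl

lemma th_mul (f g : Om 𝕜) : th (f * g) = f * th g + g * th f := th0_mul f g

lemma th_const (c : 𝕜) : th (algebraMap 𝕜 (Om 𝕜) c) = 0 := by
  apply cf_ext
  intro i
  rw [cf_th, algMap_eq, cf_sg, cf_zero]
  split_ifs with h
  · rw [h]; simp
  · simp

/-- the derivation `d/dt`, `t = u^{-k}` -/
noncomputable def DD (𝕜 : Type) [Field 𝕜] (k : ℕ) : Derivation 𝕜 (Om 𝕜) (Om 𝕜) :=
  Derivation.mk'
    { toFun := fun f => sg k (-(k : 𝕜)⁻¹) * th f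
      map_add' := by
        intro f g
        rw [← mul_add]
        congr 1
        apply cf_ext
        intro i
        rw [cf_th, cf_add, cf_add, cf_th, cf_th, mul_add]
      map_smul' := by
        intro c f
        rw [RingHom.id_apply, Algebra.smul_def, Algebra.smul_def, th_mul, th_const]
        ring }
    (by
      intro f g
      simp only [LinearMap.coe_mk, AddHom.coe_mk, smul_eq_mul]
      rw [th_mul]
      ring)

lemma DD_apply (k : ℕ) (f : Om 𝕜) : DD 𝕜 k f = sg k (-(k : 𝕜)⁻¹) * th f := rfl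

/-- degree at infinity -/
def Dgr (n : ℤ) (f : Om 𝕜) : Prop := ∀ i < -n, cf f i = 0

lemma cf_aeval_t {k : ℕ} (hk : k ≠ 0) (P : 𝕜[X]) :
    cf (aeval (sg (-k) 1 : Om 𝕜) P) (-(k * P.natDegree : ℤ)) = P.leadingCoeff := by
  rw [Polynomial.aeval_eq_sum_range]
  have h1 : ∀ (s : Finset ℕ) (F : ℕ → Om 𝕜) (i : ℤ), cf (∑ j ∈ s, F j) i = ∑ j ∈ s, cf (F j) i := by
    intro s F i
    classical
    induction s using Finset.induction_on with
    | empty => rw [Finset.sum_empty, Finset.sum_empty, cf_zero]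
    | insert a s ha ih => rw [Finset.sum_insert ha, Finset.sum_insert ha, cf_add, ih]
  rw [h1, Finset.sum_eq_single P.natDegree]
  · rw [Algebra.smul_def, cf_const_mul, sg_pow, cf_sg, if_pos (by ring), mul_one]
    rfl
  · intro j _ hj
    rw [Algebra.smul_def, cf_const_mul, sg_pow, cf_sg, if_neg, mul_zero]
    intro h2
    apply hj
    have h3 : (k : ℤ) * (P.natDegree : ℤ) = (k : ℤ) * (j : ℤ) := by linarith
    have hk' : (k : ℤ) ≠ 0 := by exact_mod_cast hk
    have h4 := mul_left_cancel₀ hk' h3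
    omega
  · intro h2
    exact absurd (Finset.mem_range.2 (Nat.lt_succ_self _)) h2

theorem amb_Om (p k : ℕ) [CharP 𝕜 p] (hk0 : (k : 𝕜) ≠ 0) :
    Amb 𝕜 (Om 𝕜) p k (DD 𝕜 k) (sg (-k) 1) Dgr := by
  have hk : k ≠ 0 := by
    rintro rfl
    simp at hk0
  refine ⟨?_, ?_, ?_, ?_, ?_, ?_, ?_, ?_, ?_, ?_, ?_⟩
  · rw [DD_apply]
    apply cf_ext
    intro i
    rw [cf_sg_mul, cf_th, cf_sg, ← sg_one, cf_sg]
    by_cases h : i = 0
    · subst h
      rw [if_pos (by ring), if_pos rfl, mul_one]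
      push_cast
      field_simp
      ring
    · rw [if_neg (by omega), if_neg h]
      ring
  · intro n i _
    rfl
  · intro n m f hnm hf i hi
    exact hf i (by omega)
  · intro n f g hf hg i hi
    rw [cf_add, hf i hi, hg i hi, add_zero]
  · intro n m f g hf hg
    exact hahn_mul_zero hf hg
  · intro c i hi
    rw [algMap_eq, cf_sg, if_neg (by omega)]
  · intro i hi
    rw [cf_sg, if_neg (by omega)]
  · intro n f hf i hi
    rw [DD_apply, cf_sg_mul, cf_th, hf _ (by omega)]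
    ring
  · intro f hf
    refine ⟨cf f 0, ?_⟩
    intro i hi
    rw [cf_sub, algMap_eq, cf_sg]
    by_cases h : i = 0
    · subst h
      rw [if_pos rfl, sub_self]
    · rw [if_neg h, hf i (by omega), sub_zero]
  · intro n f hn hD hf i hi
    by_cases h1 : i < -n
    · exact hf i h1
    · have h2 := congrArg (fun g => cf g (i + k)) hD
      simp only [DD_apply, cf_sg_mul, cf_th, cf_zero, add_sub_cancel_right] at h2
      have h3 : (-(k : 𝕜)⁻¹) ≠ 0 := neg_ne_zero.2 (inv_ne_zero hk0)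
      have h4 : (i : 𝕜) ≠ 0 := by
        intro h5
        rw [CharP.intCast_eq_zero_iff 𝕜 p] at h5
        have h6 := Int.eq_zero_of_abs_lt_dvd h5 (by rw [abs_lt]; constructor <;> omega)
        omega
      rcases mul_eq_zero.1 h2 with h5 | h5
      · exact absurd h5 h3
      · rcases mul_eq_zero.1 h5 with h6 | h6
        · exact absurd h6 h4
        · exact h6
  · intro P n hP hf
    by_contra hcon
    push Not at hcon
    have h1 := hf (-(k * P.natDegree : ℤ)) (by omega)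
    rw [cf_aeval_t hk, leadingCoeff_eq_zero] at h1
    exact hP h1

end

end Vale.Agent.P042.WA
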