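import Vale.Agent.P042.WA.W3.EGal
set_option autoImplicit false

namespace Vale.Agent.P042.WA

open Polynomial IntermediateField

section

variable {𝕜 Ω : Type} [Field 𝕜] [Field Ω] [Algebra 𝕜 Ω] {p k : ℕ}
    {D : Derivation 𝕜 Ω Ω} {t : Ω} {Dg : ℤ → Ω → Prop}

/-- all derivatives of an element of both rings are integral -/
lemma iter_intg [IsAlgClosed 𝕜] (htr : Transcendental 𝕜 t) (hDt : D t = 1)
    {h χ P : 𝕜[X]} (hdeg0 : h.natDegree ≠ 0)
    (hχ0 : χ ≠ 0) (hχ : χ.comp h = P * h.derivative)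
    (hχr : ∀ c, χ.eval c = 0 → ∃ z, h.derivative.eval z = 0 ∧ h.eval z = c)
    {s : 𝕜} (hs : ¬ Bad h s) {x z : Ω} (hx : aeval x h = t) (hz : aeval z h = -t)
    (hne : (SS h (t + algebraMap 𝕜 Ω s)).Nonempty) {w : Ω}
    (h1 : w ∈ Algebra.adjoin 𝕜 (insert (aeval t (del1 χ))⁻¹ {x, z}))
    (h2 : w ∈ Algebra.adjoin 𝕜 (insert (aeval t (del2 χ s))⁻¹ (SS h (t + algebraMap 𝕜 Ω s))))
    (m : ℕ) : Intg 𝕜 t (D^[m] w) := by
  have htn : Transcendental 𝕜 (-t) := by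
    have := tr_lin htr (ε := (-1 : 𝕜)) (by simp) 0
    simpa using this
  have hts : Transcendental 𝕜 (t + algebraMap 𝕜 Ω s) := by
    have := tr_lin htr (ε := (1 : 𝕜)) (by simp) s
    simpa using this
  have htsn : Transcendental 𝕜 (-(t + algebraMap 𝕜 Ω s)) := by
    have := tr_lin hts (ε := (-1 : 𝕜)) (by simp) 0
    simpa using this
  have hn : ∀ a : Ω, Transcendental 𝕜 a → aeval a χ ≠ 0 :=
    fun a ha h0 => hχ0 ((transcendental_iff.1 ha) χ h0)
  have hδ1 : aeval t (del1 χ) ≠ 0 := by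
    rw [aeval_del1]; exact mul_ne_zero (hn _ htr) (hn _ htn)
  have hδ2 : aeval t (del2 χ s) ≠ 0 := by
    rw [aeval_del2]; exact mul_ne_zero (hn _ hts) (hn _ htsn)
  have hDs : D (t + algebraMap 𝕜 Ω s) = 1 := by rw [map_add, hDt, D.map_algebraMap, add_zero]
  -- polynomials in an element of the ring
  have hpol : ∀ (S : Set Ω) (y : Ω), y ∈ Algebra.adjoin 𝕜 S → ∀ U : 𝕜[X],
      aeval y U ∈ Algebra.adjoin 𝕜 S := by
    intro S y hy U
    have h1 : Algebra.adjoin 𝕜 {y} ≤ Algebra.adjoin 𝕜 S := by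
      apply Algebra.adjoin_le
      intro y' hy'
      rw [Set.mem_singleton_iff.1 hy']
      exact hy
    exact h1 (aeval_mem_adjoin_singleton 𝕜 y)
  have st1 : ∀ f ∈ Algebra.adjoin 𝕜 (insert (aeval t (del1 χ))⁻¹ {x, z}),
      D f ∈ Algebra.adjoin 𝕜 (insert (aeval t (del1 χ))⁻¹ {x, z}) := by
    intro f hf
    apply D_stable D hDt _ _ hχ hδ1 ?_ ?_ f hf
    · rw [← hx]
      exact hpol _ _ (Algebra.subset_adjoin (by simp)) h
    · intro α hα
      rcases hα with rfl | hα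
      · refine ⟨t, 1, χ.comp (-X), hx, by simpa using hDt, ?_⟩
        rw [del1, map_mul]
      · rw [Set.mem_singleton_iff] at hα
        subst hα
        refine ⟨-t, -1, χ, hz, by simp [hDt], ?_⟩
        rw [aeval_del1, mul_comm]
  have st2 : ∀ f ∈ Algebra.adjoin 𝕜 (insert (aeval t (del2 χ s))⁻¹
      (SS h (t + algebraMap 𝕜 Ω s))), D f ∈ Algebra.adjoin 𝕜 (insert (aeval t (del2 χ s))⁻¹
      (SS h (t + algebraMap 𝕜 Ω s))) := by
    intro f hf
    apply D_stable D hDt _ _ hχ hδ2 ?_ ?_ f hf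
    · obtain ⟨α, hα⟩ := hne
      have hα1 : α ∈ Algebra.adjoin 𝕜 (insert (aeval t (del2 χ s))⁻¹
          (SS h (t + algebraMap 𝕜 Ω s))) := Algebra.subset_adjoin (Set.mem_insert_of_mem _ hα)
      rcases hα with hα | hα
      · have : t = aeval α h - algebraMap 𝕜 Ω s := by rw [hα]; ring
        rw [this]
        apply Subalgebra.sub_mem _ _ (Subalgebra.algebraMap_mem _ _)
        rw [← this]
        exact hpol _ _ hα1 h
      · have : t = -aeval α h - algebraMap 𝕜 Ω s := by rw [hα]; ring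
        rw [this]
        apply Subalgebra.sub_mem _ _ (Subalgebra.algebraMap_mem _ _)
        rw [← this]
        exact Subalgebra.neg_mem _ (hpol _ _ hα1 h)
    · intro α hα
      rcases hα with hα | hα
      · refine ⟨_, 1, χ.comp (-X - C s), hα, by simpa using hDs, ?_⟩
        rw [aeval_del2, aeval_comp]
        congr 2
        simp
        ring_nf
      · refine ⟨_, -1, χ.comp (X + C s), hα, by rw [map_neg, hDs]; simp, ?_⟩
        rw [aeval_del2, aeval_comp, mul_comm]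
        congr 2
        simp
  have hm : ∀ m, D^[m] w ∈ Algebra.adjoin 𝕜 (insert (aeval t (del1 χ))⁻¹ {x, z}) ∧
      D^[m] w ∈ Algebra.adjoin 𝕜 (insert (aeval t (del2 χ s))⁻¹
      (SS h (t + algebraMap 𝕜 Ω s))) := by
    intro m
    induction m with
    | zero => exact ⟨h1, h2⟩
    | succ m ih =>
      rw [Function.iterate_succ_apply']
      exact ⟨st1 _ ih.1, st2 _ ih.2⟩
  obtain ⟨ha, hb⟩ := hm m
  obtain ⟨a, ha'⟩ := denom_intg (t := t) {x, z} (aeval t (del1 χ)) (Intg.poly t _) hδ1 (by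
    intro y hy
    rcases hy with rfl | hy
    · exact intg_root hdeg0 (P := X) (by rw [hx, aeval_X])
    · rw [Set.mem_singleton_iff.1 hy]
      exact intg_root hdeg0 (P := -X) (by rw [hz, map_neg, aeval_X])) _ ha
  obtain ⟨b, hb'⟩ := denom_intg (t := t) (SS h (t + algebraMap 𝕜 Ω s)) (aeval t (del2 χ s))
    (Intg.poly t _) hδ2 (by
    intro y hy
    rcases hy with hy | hy
    · exact intg_root hdeg0 (P := X + C s) (by rw [hy]; simp)
    · exact intg_root hdeg0 (P := -(X + C s)) (by rw [hy]; simp)) _ hb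
  exact intg_of_coprime (coprime_del hχr hs) ha' hb'

/-- lifting a multiset -/
lemma exists_multiset_lift {α β : Type} (f : α → β) (q : α → Prop) (r : Multiset β)
    (hr : ∀ b ∈ r, ∃ a, f a = b ∧ q a) : ∃ r' : Multiset α, r'.map f = r ∧ ∀ a ∈ r', q a := by
  induction r using Multiset.induction_on with
  | empty => exact ⟨0, by simp, by simp⟩
  | cons b r ih =>
    obtain ⟨r', h1, h2⟩ := ih fun b hb => hr b (Multiset.mem_cons_of_mem hb)
    obtain ⟨a, ha, hqa⟩ := hr b (Multiset.mem_cons_self _ _)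
    refine ⟨a ::ₘ r', by rw [Multiset.map_cons, h1, ha], ?_⟩
    intro c hc
    rcases Multiset.mem_cons.1 hc with rfl | hc
    · exact hqa
    · exact h2 c hc

lemma minpoly_ge [IsAlgClosed 𝕜] [CharP 𝕜 p] (hA : Amb 𝕜 Ω p k D t Dg) (hk : 1 ≤ k)
    {h : 𝕜[X]} {F : 𝕜[X][X]} {d : ℕ} (hF : GoodFac h F d) (hd : (d : 𝕜) ≠ 0)
    (hirr : Irreducible F) (hh : h.derivative ≠ 0) (hdeg0 : h.natDegree ≠ 0)
    (h2 : (2 : 𝕜) ≠ 0) {s : 𝕜} (hs : ¬ Bad h s)
    {x z : Ω} (hx : aeval x h = t) (hz : ev2 x z F = 0)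
    (hspl : ∀ a : Ω, (a = t + algebraMap 𝕜 Ω s ∨ a = -(t + algebraMap 𝕜 Ω s)) →
      (h.map (algebraMap 𝕜 Ω) - C a).Splits)
    (hne : (SS h (t + algebraMap 𝕜 Ω s)).Nonempty)
    (E : IntermediateField 𝕜⟮t⟯ Ω) (hE : E = adjoin 𝕜⟮t⟯ (SS h (t + algebraMap 𝕜 Ω s)))
    (y : E) (hy1 : ∀ σ : E ≃ₐ[𝕜⟮t⟯] E, Dg 1 ((σ y : E) : Ω))
    (hy2 : ∀ σ : E ≃ₐ[𝕜⟮t⟯] E, ((σ y : E) : Ω) ∈ Algebra.adjoin 𝕜 (SS h (t + algebraMap 𝕜 Ω s)))
    (hyN : (minpoly 𝕜⟮t⟯ (y : Ω)).natDegree < p) :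
    (minpoly 𝕜⟮t⟯ (y : Ω)).natDegree ≤ (minpoly (adjoin 𝕜⟮t⟯ {x, z}) (y : Ω)).natDegree := by
  obtain ⟨χ, P, hχ0, hχ, hχr⟩ := exists_chi h hh
  have htr := hA.tr
  have hzh : aeval z h = -t := by rw [ev2_root_of_dvd hF.dvd hz, hx]
  -- Galois
  have hτtr : Transcendental 𝕜 (t + algebraMap 𝕜 Ω s) := by
    have := tr_lin htr (ε := (1 : 𝕜)) (by simp) s
    simpa using this
  have hτmem : t + algebraMap 𝕜 Ω s ∈ 𝕜⟮t⟯ :=
    add_mem (mem_adjoin_simple_self 𝕜 t) (IntermediateField.algebraMap_mem _ s)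
  obtain ⟨hfin, hgal⟩ : FiniteDimensional 𝕜⟮t⟯ E ∧ IsGalois 𝕜⟮t⟯ E := by
    rw [hE]
    exact E_props (t := t) h hh h2 ⟨_, hτmem⟩ hτtr hspl
  have hDE := hDE_of h hh hA.Dt (SS h (t + algebraMap 𝕜 Ω s)) (by
    intro α hα
    rcases hα with hα | hα
    · exact ⟨_, hτmem, hτtr, hα⟩
    · refine ⟨_, neg_mem hτmem, ?_, hα⟩
      have := tr_lin hτtr (ε := (-1 : 𝕜)) (by simp) 0
      simpa using this) E hE
  set M := adjoin 𝕜⟮t⟯ {x, z} with hM
  set Q := minpoly M (y : Ω) with hQ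
  have hyint : IsIntegral 𝕜⟮t⟯ (y : Ω) := (IsIntegral.of_finite 𝕜⟮t⟯ y).map (IsScalarTower.toAlgHom 𝕜⟮t⟯ E Ω)
  have hyintM : IsIntegral M (y : Ω) := hyint.tower_top
  have hQm : Q.Monic := minpoly.monic hyintM
  have hμE : minpoly 𝕜⟮t⟯ (y : Ω) = minpoly 𝕜⟮t⟯ y :=
    minpoly.algebraMap_eq (algebraMap E Ω).injective y
  have hsplE : ((minpoly 𝕜⟮t⟯ y).map (algebraMap 𝕜⟮t⟯ E)).Splits := IsGalois.splits 𝕜⟮t⟯ y
  have hmm : (minpoly 𝕜⟮t⟯ (y : Ω)).map (algebraMap 𝕜⟮t⟯ Ω) =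
      ((minpoly 𝕜⟮t⟯ y).map (algebraMap 𝕜⟮t⟯ E)).map (algebraMap E Ω) := by
    rw [hμE, Polynomial.map_map, ← IsScalarTower.algebraMap_eq]
  have hμne : (minpoly 𝕜⟮t⟯ (y : Ω)).map (algebraMap 𝕜⟮t⟯ Ω) ≠ 0 :=
    (minpoly.monic hyint).map _ |>.ne_zero
  have hdvd : Q.map (algebraMap M Ω) ∣ (minpoly 𝕜⟮t⟯ (y : Ω)).map (algebraMap 𝕜⟮t⟯ Ω) := by
    have h3 := minpoly.dvd_map_of_isScalarTower 𝕜⟮t⟯ M (y : Ω)
    have h4 := Polynomial.map_dvd (algebraMap M Ω) h3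
    rwa [Polynomial.map_map, ← IsScalarTower.algebraMap_eq] at h4
  have hQspl : (Q.map (algebraMap M Ω)).Splits := by
    apply Splits.of_dvd _ hμne hdvd
    rw [hmm]
    exact hsplE.map _
  have hQΩm : (Q.map (algebraMap M Ω)).Monic := hQm.map _
  have hQprod := hQspl.eq_prod_roots_of_monic hQΩm
  -- the roots come from E
  obtain ⟨rE, hrE, hrE'⟩ := exists_multiset_lift (algebraMap E Ω)
    (fun e => ∃ σ : E ≃ₐ[𝕜⟮t⟯] E, σ y = e) (Q.map (algebraMap M Ω)).roots (by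
      intro β hβ
      have h3 : β ∈ ((minpoly 𝕜⟮t⟯ (y : Ω)).map (algebraMap 𝕜⟮t⟯ Ω)).roots :=
        Multiset.mem_of_le (roots.le_of_dvd hμne hdvd) hβ
      rw [hmm, hsplE.roots_map] at h3
      obtain ⟨e, he, heβ⟩ := Multiset.mem_map.1 h3
      refine ⟨e, heβ, ?_⟩
      apply minpoly.exists_algEquiv_of_root' (Algebra.IsAlgebraic.isAlgebraic y)
      have h4 := (mem_roots'.1 he).2
      rwa [IsRoot.def, eval_map_algebraMap] at h4)
  set QE : E[X] := (rE.map fun a => X - C a).prod with hQE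
  have hmapE : ∀ (f : E →+* Ω), QE.map f = ((rE.map f).map fun a => X - C a).prod := by
    intro f
    rw [hQE, Polynomial.map_multiset_prod, Multiset.map_map, Multiset.map_map]
    congr 1
    apply Multiset.map_congr rfl
    intro a _
    simp
  have hQEΩ : QE.map (algebraMap E Ω) = Q.map (algebraMap M Ω) := by
    rw [hmapE, hrE]
    exact hQprod.symm
  have hcard : Multiset.card rE = Q.natDegree := by
    rw [← Multiset.card_map (algebraMap E Ω) rE, hrE, ← hQspl.natDegree_eq_card_roots,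
      hQm.natDegree_map]
  have hQle : Q.natDegree ≤ (minpoly 𝕜⟮t⟯ (y : Ω)).natDegree := by
    have h3 := natDegree_le_of_dvd hdvd hμne
    rwa [hQm.natDegree_map, natDegree_map] at h3
  -- coefficients
  have hcoeff : ∀ i, (Q.map (algebraMap M Ω)).coeff i ∈
      Set.range (algebraMap 𝕜⟮t⟯ Ω) := by
    intro i
    have hc1 : ((QE.coeff i : E) : Ω) = (Q.map (algebraMap M Ω)).coeff i := by
      rw [← hQEΩ, coeff_map]
      rfl
    have hc2 : (Q.map (algebraMap M Ω)).coeff i ∈ M := by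
      rw [coeff_map]
      exact (Q.coeff i).2
    have hroots2 : ∀ β ∈ (Q.map (algebraMap M Ω)).roots,
        β ∈ Algebra.adjoin 𝕜 (SS h (t + algebraMap 𝕜 Ω s)) := by
      intro β hβ
      rw [← hrE] at hβ
      obtain ⟨e, he, rfl⟩ := Multiset.mem_map.1 hβ
      obtain ⟨σ, rfl⟩ := hrE' e he
      exact hy2 σ
    have hintS : ∀ β ∈ Algebra.adjoin 𝕜 (SS h (t + algebraMap 𝕜 Ω s)), Intg 𝕜 t β := by
      intro β hβ
      induction hβ using Algebra.adjoin_induction with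
      | mem a ha =>
        rcases ha with ha | ha
        · exact intg_root hdeg0 (P := X + C s) (by rw [ha]; simp)
        · exact intg_root hdeg0 (P := -(X + C s)) (by rw [ha]; simp)
      | algebraMap r => exact Intg.const t r
      | add a b _ _ ha hb => exact ha.add hb
      | mul a b _ _ ha hb => exact ha.mul hb
    have hc3 : Intg 𝕜 t ((Q.map (algebraMap M Ω)).coeff i) := by
      rw [hQprod]
      exact Intg.coeff_of_roots _ (fun β hβ => hintS β (hroots2 β hβ)) i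
    have hc4 := mem_S1 htr hF hd hirr hχ0 hχ hz hx hc2 hc3
    have hc5 : (Q.map (algebraMap M Ω)).coeff i ∈ Algebra.adjoin 𝕜
        (insert (aeval t (del2 χ s))⁻¹ (SS h (t + algebraMap 𝕜 Ω s))) := by
      rw [hQprod]
      exact coeff_mem_of_roots _ _ (fun β hβ =>
        Algebra.adjoin_mono (Set.subset_insert _ _) (hroots2 β hβ)) i
    have hc6 : ∀ m, Intg 𝕜 t (D^[m] ((QE.coeff i : E) : Ω)) := by
      intro m
      rw [hc1]
      exact iter_intg htr hA.Dt hdeg0 hχ0 hχ hχr hs hx hzh hne hc4 hc5 m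
    have hc7 : ∀ σ : E ≃ₐ[𝕜⟮t⟯] E, Dg (Q.natDegree : ℕ) ((σ (QE.coeff i) : E) : Ω) := by
      intro σ
      have h3 : ((σ (QE.coeff i) : E) : Ω) =
          (QE.map ((algebraMap E Ω).comp (σ : E →+* E))).coeff i := by
        rw [coeff_map]
        rfl
      rw [h3, hmapE, ← hcard, ← Multiset.card_map ((algebraMap E Ω).comp (σ : E →+* E)) rE]
      apply hA.coeff_of_roots
      intro β hβ
      obtain ⟨e, he, rfl⟩ := Multiset.mem_map.1 hβ
      obtain ⟨τ, rfl⟩ := hrE' e he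
      exact hy1 (σ * τ)
    obtain ⟨R, hR⟩ := hA.key hk E hDE Q.natDegree (by omega) (QE.coeff i) hc6 hc7
    rw [hc1] at hR
    refine ⟨aeval (AdjoinSimple.gen 𝕜 t) R, ?_⟩
    rw [← hR, ← aeval_algebraMap_apply]
    simp
  obtain ⟨Q0, hQ0⟩ := (Polynomial.mem_lifts _).1 ((Polynomial.lifts_iff_coeff_lifts _).2 hcoeff)
  have hQ0y : aeval (y : Ω) Q0 = 0 := by
    rw [← eval_map_algebraMap, hQ0, eval_map_algebraMap]
    exact minpoly.aeval _ _
  have hQ0ne : Q0 ≠ 0 := by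
    rintro rfl
    rw [Polynomial.map_zero] at hQ0
    exact hQΩm.ne_zero hQ0.symm
  have h5 := natDegree_le_of_dvd (minpoly.dvd 𝕜⟮t⟯ (y : Ω) hQ0y) hQ0ne
  have h6 : Q0.natDegree = Q.natDegree := by
    rw [← natDegree_map (algebraMap 𝕜⟮t⟯ Ω) (p := Q0), hQ0, natDegree_map]
  omega

end

end Vale.Agent.P042.WA
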