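import Vale.Agent.P042.WA.W3.Degrees
set_option autoImplicit false

namespace Vale.Agent.P042.WA

open Polynomial IntermediateField

lemma exists_lambda {𝕜 Ω ι : Type} [Field 𝕜] [Infinite 𝕜] [Field Ω] [Algebra 𝕜 Ω] [Finite ι]
    (a b : ι → Ω) : ∃ l : 𝕜, ∀ i, algebraMap 𝕜 Ω l * a i = b i → a i = 0 := by
  classical
  have hfin : Set.Finite (⋃ i : ι, {l : 𝕜 | a i ≠ 0 ∧ algebraMap 𝕜 Ω l * a i = b i}) := by
    apply Set.finite_iUnion
    intro i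
    apply Set.Subsingleton.finite
    rintro l ⟨h1, h2⟩ l' ⟨_, h3⟩
    apply (algebraMap 𝕜 Ω).injective
    exact mul_right_cancel₀ h1 (h2.trans h3.symm)
  obtain ⟨l, hl⟩ := hfin.exists_notMem
  refine ⟨l, fun i hi => ?_⟩
  by_contra h0
  exact hl (Set.mem_iUnion.2 ⟨i, h0, hi⟩)

section

variable {𝕜 Ω : Type} [Field 𝕜] [Field Ω] [Algebra 𝕜 Ω] {p k : ℕ}
    {D : Derivation 𝕜 Ω Ω} {t : Ω} {Dg : ℤ → Ω → Prop}

/-- the degrees of `x'` and `z'` do not drop over `M = 𝕜(x,z)` -/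
lemma deg_over_M [IsAlgClosed 𝕜] [CharP 𝕜 p] (hA : Amb 𝕜 Ω p k D t Dg)
    {h : 𝕜[X]} {F : 𝕜[X][X]} {d : ℕ} (hF : GoodFac h F d) (hd : (d : 𝕜) ≠ 0)
    (hirr : Irreducible F) (hh : h.derivative ≠ 0) (hdeg : h.natDegree = k) (hk : 1 ≤ k)
    (hkd : k * d < p)
    (h2 : (2 : 𝕜) ≠ 0) {s : 𝕜} (hs : ¬ Bad h s)
    {x z x' z' : Ω} (hx : aeval x h = t) (hz : ev2 x z F = 0)
    (hx' : aeval x' h = t + algebraMap 𝕜 Ω s) (hz' : ev2 x' z' F = 0)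
    (hspl : ∀ a : Ω, (a = t + algebraMap 𝕜 Ω s ∨ a = -(t + algebraMap 𝕜 Ω s)) →
      (h.map (algebraMap 𝕜 Ω) - C a).Splits)
    (hdg : ∀ α ∈ SS h (t + algebraMap 𝕜 Ω s), Dg 1 α) :
    (minpoly (adjoin 𝕜⟮t⟯ {x, z}) x').natDegree = k ∧
      (minpoly (adjoin 𝕜⟮t⟯ {x, z})⟮x'⟯ z').natDegree = d := by
  have hdeg0 : h.natDegree ≠ 0 := by omega
  have htr := hA.tr
  have hd1 := hF.pos
  have hzh' : aeval z' h = -(t + algebraMap 𝕜 Ω s) := by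
    rw [ev2_root_of_dvd hF.dvd hz', hx']
  have hxS : x' ∈ SS h (t + algebraMap 𝕜 Ω s) := Or.inl hx'
  have hzS : z' ∈ SS h (t + algebraMap 𝕜 Ω s) := Or.inr hzh'
  have hτmem : t + algebraMap 𝕜 Ω s ∈ 𝕜⟮t⟯ :=
    add_mem (mem_adjoin_simple_self 𝕜 t) (IntermediateField.algebraMap_mem _ s)
  have hτtr : Transcendental 𝕜 (t + algebraMap 𝕜 Ω s) := by
    have := tr_lin htr (ε := (1 : 𝕜)) (by simp) s
    simpa using this
  set E : IntermediateField 𝕜⟮t⟯ Ω := adjoin 𝕜⟮t⟯ (SS h (t + algebraMap 𝕜 Ω s)) with hE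
  obtain ⟨hfin, hgal⟩ : FiniteDimensional 𝕜⟮t⟯ E ∧ IsGalois 𝕜⟮t⟯ E :=
    E_props (t := t) h hh h2 ⟨_, hτmem⟩ hτtr hspl
  have hST : IsScalarTower 𝕜 E Ω := IsScalarTower.of_algebraMap_eq fun x => rfl
  -- Galois action on the roots
  have hact : ∀ (σ : E ≃ₐ[𝕜⟮t⟯] E) (α : E), (α : Ω) ∈ SS h (t + algebraMap 𝕜 Ω s) →
      ((σ α : E) : Ω) ∈ SS h (t + algebraMap 𝕜 Ω s) := by
    intro σ α hα
    have hcoe' : ∀ y : E, ((aeval y h : E) : Ω) = aeval (y : Ω) h := by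
      intro y
      have h1 : ((aeval y h : E) : Ω) = algebraMap E Ω (aeval y h) := rfl
      rw [h1, ← aeval_algebraMap_apply]
      rfl
    have h3 : aeval (σ α) h = σ (aeval α h) := by
      have h4 := Polynomial.aeval_algHom_apply ((σ : E →ₐ[𝕜⟮t⟯] E).restrictScalars 𝕜) α h
      exact h4
    have key : ∀ a : 𝕜⟮t⟯, aeval (α : Ω) h = (a : Ω) → aeval ((σ α : E) : Ω) h = (a : Ω) := by
      intro a ha
      have h5 : aeval α h = algebraMap 𝕜⟮t⟯ E a := by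
        apply (algebraMap E Ω).injective
        have h6 : algebraMap E Ω (aeval α h) = ((aeval α h : E) : Ω) := rfl
        rw [h6, hcoe', ha]
        rfl
      rw [← hcoe', h3, h5, σ.commutes]
      rfl
    rcases hα with hα | hα
    · exact Or.inl (key ⟨_, hτmem⟩ hα)
    · exact Or.inr (key ⟨_, neg_mem hτmem⟩ hα)
  set xE : E := ⟨x', subset_adjoin _ _ hxS⟩ with hxE
  set zE : E := ⟨z', subset_adjoin _ _ hzS⟩ with hzE
  have : Infinite 𝕜 := IsAlgClosed.instInfinite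
  obtain ⟨l, hl⟩ := exists_lambda (𝕜 := 𝕜) (Ω := Ω) (ι := E ≃ₐ[𝕜⟮t⟯] E)
    (fun σ => ((σ zE : E) : Ω) - z') (fun σ => x' - ((σ xE : E) : Ω))
  set lE : E := algebraMap 𝕜⟮t⟯ E (algebraMap 𝕜 𝕜⟮t⟯ l) with hlE
  have hlE' : (lE : Ω) = algebraMap 𝕜 Ω l := rfl
  set y : E := xE + lE * zE with hy
  have hyc : (y : Ω) = x' + algebraMap 𝕜 Ω l * z' := by
    rw [hy]; push_cast; rw [hlE']
  have hσy : ∀ σ : E ≃ₐ[𝕜⟮t⟯] E, ((σ y : E) : Ω) =
      ((σ xE : E) : Ω) + algebraMap 𝕜 Ω l * ((σ zE : E) : Ω) := by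
    intro σ
    rw [hy, map_add, map_mul, hlE, σ.commutes]
    push_cast
    rfl
  have hprim : ∀ σ : E ≃ₐ[𝕜⟮t⟯] E, σ y = y → σ xE = xE ∧ σ zE = zE := by
    intro σ hσ
    have h3 := hσy σ
    rw [hσ, hyc] at h3
    have h4 := hl σ (by linear_combination -h3)
    have h5 : ((σ zE : E) : Ω) = z' := sub_eq_zero.1 h4
    have h6 : ((σ xE : E) : Ω) = x' := by
      rw [h5] at h3
      linear_combination -h3
    exact ⟨Subtype.ext h6, Subtype.ext h5⟩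
  -- x', z' in K(y)
  have hmem : xE ∈ 𝕜⟮t⟯⟮y⟯ ∧ zE ∈ 𝕜⟮t⟯⟮y⟯ := by
    rw [← IsGalois.fixedField_fixingSubgroup (𝕜⟮t⟯⟮y⟯)]
    have h3 : ∀ σ ∈ fixingSubgroup 𝕜⟮t⟯⟮y⟯, σ xE = xE ∧ σ zE = zE := by
      intro σ hσ
      apply hprim
      rw [IntermediateField.mem_fixingSubgroup_iff] at hσ
      exact hσ y (mem_adjoin_simple_self _ _)
    constructor
    · rw [IntermediateField.mem_fixedField_iff]
      exact fun σ hσ => (h3 σ hσ).1
    · rw [IntermediateField.mem_fixedField_iff]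
      exact fun σ hσ => (h3 σ hσ).2
  have htrans : ∀ a : E, a ∈ 𝕜⟮t⟯⟮y⟯ → (a : Ω) ∈ 𝕜⟮t⟯⟮(y : Ω)⟯ := by
    intro a ha
    obtain ⟨r, q, hrq⟩ := (IntermediateField.mem_adjoin_simple_iff _ _).1 ha
    rw [IntermediateField.mem_adjoin_simple_iff]
    refine ⟨r, q, ?_⟩
    rw [hrq]
    have h3 : ∀ P : 𝕜⟮t⟯[X], aeval (y : Ω) P = ((aeval y P : E) : Ω) := by
      intro P
      exact aeval_algebraMap_apply Ω y P
    rw [h3, h3]
    rfl
  have hx'y : x' ∈ 𝕜⟮t⟯⟮(y : Ω)⟯ := htrans xE hmem.1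
  have hz'y : z' ∈ 𝕜⟮t⟯⟮(y : Ω)⟯ := htrans zE hmem.2
  have hyint : IsIntegral 𝕜⟮t⟯ (y : Ω) :=
    (IsIntegral.of_finite 𝕜⟮t⟯ y).map (IsScalarTower.toAlgHom 𝕜⟮t⟯ E Ω)
  -- degrees over the base
  obtain ⟨hx'int, hx'le⟩ := deg_x_le (L := 𝕜⟮t⟯) (Ω := Ω) hdeg0 ⟨_, hτmem⟩ (x' := x') hx'
  have hSTx : IsScalarTower 𝕜 𝕜⟮t⟯⟮x'⟯ Ω := IsScalarTower.of_algebraMap_eq fun x => rfl
  obtain ⟨hz'int', hz'le⟩ := deg_z_le (L := 𝕜⟮t⟯⟮x'⟯) (Ω := Ω) hF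
    (AdjoinSimple.gen 𝕜⟮t⟯ x') rfl hz'
  have hz'int : IsIntegral 𝕜⟮t⟯ z' :=
    (deg_x_le (L := 𝕜⟮t⟯) (Ω := Ω) hdeg0 ⟨_, neg_mem hτmem⟩ (x' := z') hzh').1
  have hx'eq : (minpoly 𝕜⟮t⟯ x').natDegree = k := by
    have := deg_x_base htr hdeg0 hx' hx'int
    omega
  have hz'eq : (minpoly 𝕜⟮t⟯⟮x'⟯ z').natDegree = d := by
    have := deg_z_base htr hF hirr hx' hz' hz'int'
    omega
  have hK := finrank_two hx'int hz'int
  rw [hx'eq, hz'eq] at hK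
  have hKy : Module.finrank 𝕜⟮t⟯ 𝕜⟮t⟯⟮(y : Ω)⟯ = (minpoly 𝕜⟮t⟯ (y : Ω)).natDegree :=
    adjoin.finrank hyint
  have hfin2 : FiniteDimensional 𝕜⟮t⟯ 𝕜⟮t⟯⟮(y : Ω)⟯ := adjoin.finiteDimensional hyint
  have hfin3 : FiniteDimensional 𝕜⟮t⟯ (adjoin 𝕜⟮t⟯ {x', z'}) := by
    apply Module.finite_of_finrank_pos
    rw [hK]
    positivity
  have hle1 : adjoin 𝕜⟮t⟯ {x', z'} ≤ 𝕜⟮t⟯⟮(y : Ω)⟯ := by
    rw [adjoin_le_iff]
    intro a ha
    rcases ha with rfl | ha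
    · exact hx'y
    · rw [Set.mem_singleton_iff.1 ha]; exact hz'y
  have hle2 : 𝕜⟮t⟯⟮(y : Ω)⟯ ≤ adjoin 𝕜⟮t⟯ {x', z'} := by
    rw [adjoin_le_iff]
    intro a ha
    rw [Set.mem_singleton_iff.1 ha, hyc]
    have h3 : algebraMap 𝕜 Ω l ∈ adjoin 𝕜⟮t⟯ {x', z'} := by
      have : algebraMap 𝕜 Ω l = algebraMap 𝕜⟮t⟯ Ω (algebraMap 𝕜 𝕜⟮t⟯ l) := rfl
      rw [this]
      exact IntermediateField.algebraMap_mem _ _
    exact add_mem (subset_adjoin _ _ (Set.mem_insert _ _))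
      (mul_mem h3 (subset_adjoin _ _ (Set.mem_insert_of_mem _ (Set.mem_singleton _))))
  have heq : adjoin 𝕜⟮t⟯ {x', z'} = 𝕜⟮t⟯⟮(y : Ω)⟯ := le_antisymm hle1 hle2
  rw [heq, hKy] at hK
  -- the key inequality
  have hkey := minpoly_ge hA hk hF hd hirr hh hdeg0 h2 hs hx hz hspl ⟨x', hxS⟩ E hE y
    (by
      intro σ
      rw [hσy]
      have h3 := hA.mul (hA.const l) (hdg _ (hact σ zE hzS))
      rw [zero_add] at h3
      exact hA.add (hdg _ (hact σ xE hxS)) h3)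
    (by
      intro σ
      rw [hσy]
      exact Subalgebra.add_mem _ (Algebra.subset_adjoin (hact σ xE hxS))
        (Subalgebra.mul_mem _ (Subalgebra.algebraMap_mem _ _)
          (Algebra.subset_adjoin (hact σ zE hzS))))
    (by omega)
  -- degrees over M
  set M := adjoin 𝕜⟮t⟯ {x, z} with hM
  have hyintM : IsIntegral M (y : Ω) := hyint.tower_top
  have hSTM : IsScalarTower 𝕜 M Ω := IsScalarTower.of_algebraMap_eq fun x => rfl
  obtain ⟨hx'intM, hx'leM⟩ := deg_x_le (L := M) (Ω := Ω) hdeg0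
    (algebraMap 𝕜⟮t⟯ M ⟨_, hτmem⟩) (x' := x') hx'
  have hSTM' : IsScalarTower 𝕜 M⟮x'⟯ Ω := IsScalarTower.of_algebraMap_eq fun x => rfl
  obtain ⟨hz'intM', hz'leM⟩ := deg_z_le (L := M⟮x'⟯) (Ω := Ω) hF
    (AdjoinSimple.gen M x') rfl hz'
  have hz'intM : IsIntegral M z' := hz'int.tower_top
  have hMf := finrank_two hx'intM hz'intM
  have hpos1 : 0 < (minpoly M x').natDegree := minpoly.natDegree_pos hx'intM
  have hpos2 : 0 < (minpoly M⟮x'⟯ z').natDegree := minpoly.natDegree_pos hz'intM'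
  have hfin4 : FiniteDimensional M (adjoin M {x', z'}) := by
    apply Module.finite_of_finrank_pos
    rw [hMf]
    positivity
  have hle3 : M⟮(y : Ω)⟯ ≤ adjoin M {x', z'} := by
    rw [adjoin_le_iff]
    intro a ha
    rw [Set.mem_singleton_iff.1 ha, hyc]
    have h3 : algebraMap 𝕜 Ω l ∈ adjoin M {x', z'} := by
      have : algebraMap 𝕜 Ω l = algebraMap M Ω (algebraMap 𝕜⟮t⟯ M (algebraMap 𝕜 𝕜⟮t⟯ l)) := rfl
      rw [this]
      exact IntermediateField.algebraMap_mem _ _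
    exact add_mem (subset_adjoin _ _ (Set.mem_insert _ _))
      (mul_mem h3 (subset_adjoin _ _ (Set.mem_insert_of_mem _ (Set.mem_singleton _))))
  have h5 : Module.finrank M M⟮(y : Ω)⟯ ≤ Module.finrank M (adjoin M {x', z'}) :=
    LinearMap.finrank_le_finrank_of_injective (f := (inclusion hle3).toLinearMap)
      (inclusion hle3).injective
  rw [adjoin.finrank hyintM, hMf] at h5
  have h6 : k * d ≤ (minpoly M x').natDegree * (minpoly M⟮x'⟯ z').natDegree := by omega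
  have h7 : (minpoly M x').natDegree ≤ k := by omega
  have h8 : (minpoly M⟮x'⟯ z').natDegree ≤ d := hz'leM
  constructor
  · by_contra hne
    have h9 : (minpoly M x').natDegree < k := by omega
    have : (minpoly M x').natDegree * (minpoly M⟮x'⟯ z').natDegree < k * d :=
      lt_of_le_of_lt (Nat.mul_le_mul_left _ h8) (Nat.mul_lt_mul_of_pos_right h9 hd1)
    omega
  · by_contra hne
    have h9 : (minpoly M⟮x'⟯ z').natDegree < d := by omega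
    have : (minpoly M x').natDegree * (minpoly M⟮x'⟯ z').natDegree < k * d :=
      lt_of_le_of_lt (Nat.mul_le_mul_right _ h7) (Nat.mul_lt_mul_of_pos_left h9 hk)
    omega

end

end Vale.Agent.P042.WA
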