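import Vale.Agent.P042.WA.W3.Gal
set_option autoImplicit false

namespace Vale.Agent.P042.WA

open Polynomial IntermediateField

/-- `h(X) - a` is separable if `a` is transcendental -/
lemma sepOf {𝕜 L : Type} [Field 𝕜] [IsAlgClosed 𝕜] [Field L] [Algebra 𝕜 L] (h : 𝕜[X])
    (hh : h.derivative ≠ 0) (a : L) (ha : Transcendental 𝕜 a) :
    (h.map (algebraMap 𝕜 L) - C a).Separable := by
  obtain ⟨χ, P, hχ0, hχ, _⟩ := exists_chi h hh
  set Hm := h.map (algebraMap 𝕜 L) with hHm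
  have h1 : (Hm - C a).derivative = h.derivative.map (algebraMap 𝕜 L) := by
    rw [derivative_sub, derivative_C, sub_zero, hHm, derivative_map]
  have hc : aeval a χ ≠ 0 := by
    intro h0
    exact hχ0 ((transcendental_iff.1 ha) χ h0)
  have h2 : (χ.map (algebraMap 𝕜 L)).comp Hm =
      P.map (algebraMap 𝕜 L) * h.derivative.map (algebraMap 𝕜 L) := by
    rw [hHm, ← Polynomial.map_comp, hχ, Polynomial.map_mul]
  obtain ⟨B, hB⟩ : (Hm - C a) ∣ ((χ.map (algebraMap 𝕜 L)).comp Hm - C (aeval a χ)) := by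
    obtain ⟨B, hB⟩ := X_sub_C_dvd_sub_C_eval (a := a) (p := χ.map (algebraMap 𝕜 L))
    refine ⟨B.comp Hm, ?_⟩
    have h3 := congrArg (fun q => q.comp Hm) hB
    simp only [sub_comp, C_comp, mul_comp, X_comp] at h3
    rw [eval_map_algebraMap] at h3
    exact h3
  rw [Polynomial.Separable, h1]
  refine ⟨-(C (aeval a χ)⁻¹ * B), C (aeval a χ)⁻¹ * P.map (algebraMap 𝕜 L), ?_⟩
  have h4 : C (aeval a χ)⁻¹ * C (aeval a χ) = (1 : L[X]) := by
    rw [← C_mul, inv_mul_cancel₀ hc, C_1]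
  calc -(C (aeval a χ)⁻¹ * B) * (Hm - C a) +
        C (aeval a χ)⁻¹ * P.map (algebraMap 𝕜 L) * h.derivative.map (algebraMap 𝕜 L)
      = C (aeval a χ)⁻¹ * (P.map (algebraMap 𝕜 L) * h.derivative.map (algebraMap 𝕜 L) -
          (Hm - C a) * B) := by ring
    _ = C (aeval a χ)⁻¹ * C (aeval a χ) := by rw [← h2, ← hB]; ring
    _ = 1 := h4

section

variable {𝕜 Ω : Type} [Field 𝕜] [Field Ω] [Algebra 𝕜 Ω] {p k : ℕ}
    {D : Derivation 𝕜 Ω Ω} {t : Ω} {Dg : ℤ → Ω → Prop}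

lemma D_mem_base (hDt : D t = 1) {f : Ω} (hf : f ∈ 𝕜⟮t⟯) : D f ∈ 𝕜⟮t⟯ := by
  induction hf using IntermediateField.adjoin_induction with
  | mem x hx =>
    rw [Set.mem_singleton_iff.1 hx, hDt]
    exact one_mem _
  | algebraMap x => rw [D.map_algebraMap]; exact zero_mem _
  | add x y _ _ hx hy => rw [map_add]; exact add_mem hx hy
  | inv x hx' hx =>
    rw [D.leibniz_inv, smul_eq_mul]
    exact mul_mem (neg_mem (pow_mem (inv_mem hx') 2)) hx
  | mul x y hx' hy' hx hy =>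
    rw [D.leibniz, smul_eq_mul, smul_eq_mul]
    exact add_mem (mul_mem hx' hy) (mul_mem hy' hx)

/-- value of `D` at a root of `h(X) = a` -/
lemma D_root (h : 𝕜[X]) (D : Derivation 𝕜 Ω Ω) {α a : Ω} (hα : aeval α h = a) :
    aeval α h.derivative * D α = D a := by
  rw [← hα, D_aeval]

/-- `h'(α) ≠ 0` for a root of `h(X) = a`, `a` transcendental -/
lemma deriv_root_ne [IsAlgClosed 𝕜] (h : 𝕜[X]) (hh : h.derivative ≠ 0) {α a : Ω}
    (ha : Transcendental 𝕜 a) (hα : aeval α h = a) : aeval α h.derivative ≠ 0 := by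
  intro h0
  have h1 : IsIntegral 𝕜 α := isAlgebraic_iff_isIntegral.1 ⟨h.derivative, hh, h0⟩
  apply ha
  rw [← hα, isAlgebraic_iff_isIntegral]
  have h2 : Algebra.adjoin 𝕜 {α} ≤ integralClosure 𝕜 Ω := by
    apply Algebra.adjoin_le
    intro x hx
    rw [Set.mem_singleton_iff.1 hx]
    exact h1
  exact h2 (aeval_mem_adjoin_singleton 𝕜 α)

/-- the derivation preserves the field generated by roots `h(α) = ± τ` and commutes
with its automorphisms. -/
lemma hDE_of [IsAlgClosed 𝕜] (h : 𝕜[X]) (hh : h.derivative ≠ 0) (hDt : D t = 1) (S : Set Ω)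
    (hS : ∀ α ∈ S, ∃ a ∈ 𝕜⟮t⟯, Transcendental 𝕜 a ∧ aeval α h = a)
    (E : IntermediateField 𝕜⟮t⟯ Ω) (hE : E = adjoin 𝕜⟮t⟯ S)
    (f : E) : ∃ g : E, D (f : Ω) = g ∧
      ∀ σ : E ≃ₐ[𝕜⟮t⟯] E, D ((σ f : E) : Ω) = ((σ g : E) : Ω) := by
  have hST : IsScalarTower 𝕜 E Ω := IsScalarTower.of_algebraMap_eq fun x => rfl
  have key : ∀ (x : Ω) (hx : x ∈ E), ∃ g : E, D x = g ∧
      ∀ σ : E ≃ₐ[𝕜⟮t⟯] E, D ((σ ⟨x, hx⟩ : E) : Ω) = ((σ g : E) : Ω) := by
    subst hE
    set E := adjoin 𝕜⟮t⟯ S with hE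
    intro x hx
    induction hx using IntermediateField.adjoin_induction with
    | mem x hx =>
      obtain ⟨a, haK, hat, hα⟩ := hS x hx
      have hxE : x ∈ E := subset_adjoin _ _ hx
      have hDa : D a ∈ 𝕜⟮t⟯ := D_mem_base hDt haK
      set xE : E := ⟨x, hxE⟩ with hxE'
      set dK : 𝕜⟮t⟯ := ⟨D a, hDa⟩ with hdK
      have hcoe : ∀ y : E, ((aeval y h.derivative : E) : Ω) = aeval (y : Ω) h.derivative := by
        intro y
        have h1 : ((aeval y h.derivative : E) : Ω) = algebraMap E Ω (aeval y h.derivative) := rfl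
        rw [h1, ← aeval_algebraMap_apply]
        rfl
      have hcoe' : ∀ y : E, ((aeval y h : E) : Ω) = aeval (y : Ω) h := by
        intro y
        have h1 : ((aeval y h : E) : Ω) = algebraMap E Ω (aeval y h) := rfl
        rw [h1, ← aeval_algebraMap_apply]
        rfl
      have hroot : ∀ σ : E ≃ₐ[𝕜⟮t⟯] E, aeval ((σ xE : E) : Ω) h = a := by
        intro σ
        have h1 : aeval xE h = algebraMap 𝕜⟮t⟯ E ⟨a, haK⟩ := by
          apply (algebraMap E Ω).injective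
          have h2 : algebraMap E Ω (aeval xE h) = ((aeval xE h : E) : Ω) := rfl
          rw [h2, hcoe']
          exact hα
        have h3 : aeval (σ xE) h = σ (aeval xE h) := by
          have h4 := Polynomial.aeval_algHom_apply ((σ : E →ₐ[𝕜⟮t⟯] E).restrictScalars 𝕜) xE h
          exact h4
        rw [← hcoe', h3, h1, σ.commutes]
        rfl
      have hne : ∀ σ : E ≃ₐ[𝕜⟮t⟯] E, aeval ((σ xE : E) : Ω) h.derivative ≠ 0 := fun σ =>
        deriv_root_ne h hh hat (hroot σ)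
      refine ⟨(aeval xE h.derivative)⁻¹ * algebraMap 𝕜⟮t⟯ E dK, ?_, ?_⟩
      · push_cast
        rw [hcoe]
        have h1 := D_root h D hα
        have h2 : aeval x h.derivative ≠ 0 := deriv_root_ne h hh hat hα
        have h3 : algebraMap 𝕜⟮t⟯ Ω dK = D a := rfl
        rw [h3, ← h1, inv_mul_cancel_left₀ h2]
      · intro σ
        have h1 := D_root h D (hroot σ)
        rw [map_mul, map_inv₀, σ.commutes]
        have h3 : aeval (σ xE) h.derivative = σ (aeval xE h.derivative) := by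
          have h4 := Polynomial.aeval_algHom_apply ((σ : E →ₐ[𝕜⟮t⟯] E).restrictScalars 𝕜) xE
            h.derivative
          exact h4
        rw [← h3]
        push_cast
        rw [hcoe]
        have h5 : algebraMap 𝕜⟮t⟯ Ω dK = D a := rfl
        rw [h5, ← h1, inv_mul_cancel_left₀ (hne σ)]
    | algebraMap x =>
      have hDx : D (x : Ω) ∈ 𝕜⟮t⟯ := D_mem_base hDt x.2
      refine ⟨algebraMap 𝕜⟮t⟯ E ⟨D x, hDx⟩, rfl, ?_⟩
      intro σ
      rw [σ.commutes]
      have h1 : (⟨algebraMap 𝕜⟮t⟯ Ω x, IntermediateField.algebraMap_mem E x⟩ : E) =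
        algebraMap 𝕜⟮t⟯ E x := rfl
      rw [h1, σ.commutes]
      rfl
    | add x y hx' hy' hx hy =>
      obtain ⟨g1, hg1, hg1'⟩ := hx
      obtain ⟨g2, hg2, hg2'⟩ := hy
      refine ⟨g1 + g2, by rw [map_add, hg1, hg2]; rfl, ?_⟩
      intro σ
      have h1 : (⟨x + y, add_mem hx' hy'⟩ : E) = ⟨x, hx'⟩ + ⟨y, hy'⟩ := rfl
      rw [h1, map_add, map_add]
      push_cast
      rw [map_add, hg1' σ, hg2' σ]
    | inv x hx' hx =>
      obtain ⟨g, hg, hg'⟩ := hx
      refine ⟨-(⟨x, hx'⟩ : E)⁻¹ ^ 2 * g, ?_, ?_⟩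
      · rw [D.leibniz_inv, smul_eq_mul, hg]
        push_cast
        rfl
      · intro σ
        have h1 : (⟨x⁻¹, inv_mem hx'⟩ : E) = (⟨x, hx'⟩ : E)⁻¹ := rfl
        rw [h1, map_inv₀, map_mul, map_neg, map_pow, map_inv₀]
        push_cast
        rw [D.leibniz_inv, smul_eq_mul, hg' σ]
    | mul x y hx' hy' hx hy =>
      obtain ⟨g1, hg1, hg1'⟩ := hx
      obtain ⟨g2, hg2, hg2'⟩ := hy
      refine ⟨⟨x, hx'⟩ * g2 + ⟨y, hy'⟩ * g1, ?_, ?_⟩
      · rw [D.leibniz, smul_eq_mul, smul_eq_mul, hg1, hg2]; rfl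
      · intro σ
        have h1 : (⟨x * y, mul_mem hx' hy'⟩ : E) = ⟨x, hx'⟩ * ⟨y, hy'⟩ := rfl
        rw [h1, map_mul, map_add, map_mul, map_mul]
        push_cast
        rw [D.leibniz, smul_eq_mul, smul_eq_mul, hg1' σ, hg2' σ]
  exact key f f.2

end

end Vale.Agent.P042.WA
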