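import Vale.Agent.P042.WA.W3.Split
import Vale.Agent.P042.WA.Spec
import Mathlib.RingTheory.Discriminant
import Mathlib.RingTheory.Polynomial.GaussLemma
set_option autoImplicit false

namespace Vale.Agent.P042.WA

open Polynomial IntermediateField

section

variable {𝕜 : Type} [Field 𝕜]

/-- explicit Bezout relation between `F` and its derivative -/
lemma bezF {h : 𝕜[X]} {F : 𝕜[X][X]} {d : ℕ} (hF : GoodFac h F d) {χ P : 𝕜[X]}
    (hχ : χ.comp h = P * h.derivative) :
    ∃ A B : 𝕜[X][X], C (χ.comp (-h)) = F.derivative * B + F * A := by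
  obtain ⟨G, hG⟩ := hF.dvd
  obtain ⟨B0, hB0⟩ := X_sub_C_dvd_sub_C_eval (a := (-h)) (p := χ.map (C : 𝕜 →+* 𝕜[X]))
  have h1 := congrArg (fun q => q.comp (h.map C)) hB0
  simp only [sub_comp, C_comp, mul_comp, X_comp] at h1
  have h2 : (χ.map (C : 𝕜 →+* 𝕜[X])).eval (-h) = χ.comp (-h) := by
    rw [eval_map, comp]
  have h3 : (χ.map (C : 𝕜 →+* 𝕜[X])).comp (h.map C) = P.map C * h.derivative.map C := by
    rw [← Polynomial.map_comp, hχ, Polynomial.map_mul]
  rw [h2, h3] at h1
  have h4 : (h.map C - C (-h) : 𝕜[X][X]) = F * G := by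
    rw [← hG, HH, C_neg]; ring
  have h5 : h.derivative.map C = F.derivative * G + F * G.derivative := by
    have := congrArg derivative hG
    rw [HH, derivative_add, derivative_C, zero_add, derivative_map, derivative_mul] at this
    exact this
  rw [h4] at h1
  refine ⟨P.map C * G.derivative - G * B0.comp (h.map C), P.map C * G, ?_⟩
  have h6 : C (χ.comp (-h)) = P.map C * h.derivative.map C - F * G * B0.comp (h.map C) := by
    rw [← h1]; ring
  rw [h6, h5]
  ring

end

section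

variable {𝕜 : Type} [Field 𝕜] {F : 𝕜[X][X]}

/-- `F` over the rational function field -/
noncomputable abbrev Fr (F : 𝕜[X][X]) : (RatFunc 𝕜)[X] := F.map (algebraMap 𝕜[X] (RatFunc 𝕜))

lemma Fr_irred (hm : F.Monic) (hF : Irreducible F) : Irreducible (Fr F) :=
  (hm.irreducible_iff_irreducible_map_fraction_map (K := RatFunc 𝕜)).1 hF

/-- STEP A: integral elements of the function field have bounded denominators. -/
lemma stepA {h : 𝕜[X]} {d : ℕ} (hF : GoodFac h F d) (hd : (d : 𝕜) ≠ 0)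
    (hirr : Irreducible F) {χ P : 𝕜[X]} (hχ : χ.comp h = P * h.derivative)
    (w : AdjoinRoot (Fr F)) (hw : IsIntegral 𝕜[X] w) :
    (algebraMap 𝕜[X] (AdjoinRoot (Fr F)) (χ.comp (-h))) ^ d * w ∈
      Algebra.adjoin 𝕜[X] {AdjoinRoot.root (Fr F)} := by
  have hFrirr := Fr_irred hF.monic hirr
  have hFrm : (Fr F).Monic := hF.monic.map _
  have : Fact (Irreducible (Fr F)) := ⟨hFrirr⟩
  have hFr0 : Fr F ≠ 0 := hFrm.ne_zero
  set pb := AdjoinRoot.powerBasis hFr0 with hpb
  have hgen : pb.gen = AdjoinRoot.root (Fr F) := rfl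
  have hmin : minpoly (RatFunc 𝕜) (AdjoinRoot.root (Fr F)) = Fr F := by
    rw [AdjoinRoot.minpoly_root hFr0, hFrm.leadingCoeff, inv_one, C_1, mul_one]
  have : FiniteDimensional (RatFunc 𝕜) (AdjoinRoot (Fr F)) := pb.finite
  have hdeg : (Fr F).natDegree = d := by
    rw [hF.monic.natDegree_map, hF.deg]
  have hsep : (Fr F).Separable := by
    rw [separable_iff_derivative_ne_zero hFrirr]
    intro h0
    have h1 : (derivative (Fr F)).coeff (d - 1) = 0 := by rw [h0, coeff_zero]
    have hd1 := hF.pos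
    rw [coeff_derivative, Nat.sub_add_cancel hd1] at h1
    have h2 : (Fr F).coeff d = 1 := by
      rw [← hdeg]; exact hFrm
    rw [h2, one_mul] at h1
    have h3 : ((d - 1 : ℕ) : RatFunc 𝕜) + 1 = algebraMap 𝕜 (RatFunc 𝕜) (d : 𝕜) := by
      rw [map_natCast]
      have : ((d - 1 : ℕ) : RatFunc 𝕜) + 1 = ((d - 1 + 1 : ℕ) : RatFunc 𝕜) := by push_cast; ring
      rw [this, Nat.sub_add_cancel hd1]
    rw [h3] at h1
    exact hd ((map_eq_zero _).1 h1)
  have : Algebra.IsSeparable (RatFunc 𝕜) (AdjoinRoot (Fr F)) := by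
    have h1 : IsSeparable (RatFunc 𝕜) (AdjoinRoot.root (Fr F)) := by
      rw [IsSeparable, hmin]; exact hsep
    have h2 := (IntermediateField.isSeparable_adjoin_simple_iff_isSeparable (F := RatFunc 𝕜)
      (E := AdjoinRoot (Fr F))).2 h1
    have h3 : (RatFunc 𝕜)⟮AdjoinRoot.root (Fr F)⟯ = ⊤ := by
      rw [← IntermediateField.toSubalgebra_inj, IntermediateField.top_toSubalgebra,
        IntermediateField.adjoin_simple_toSubalgebra_of_isAlgebraic
          (Algebra.IsAlgebraic.isAlgebraic _)]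
      exact AdjoinRoot.adjoinRoot_eq_top
    rw [h3] at h2
    exact (AlgEquiv.Algebra.isSeparable (IntermediateField.topEquiv (F := RatFunc 𝕜)
      (E := AdjoinRoot (Fr F))))
  have hint : IsIntegral 𝕜[X] pb.gen := by
    rw [hgen]
    refine ⟨F, hF.monic, ?_⟩
    have h1 := AdjoinRoot.eval₂_root (Fr F)
    rw [eval₂_map] at h1
    exact h1
  have h1 := Algebra.discr_mul_isIntegral_mem_adjoin (K := RatFunc 𝕜) hint hw
  rw [Algebra.discr_powerBasis_eq_norm, hgen, hmin] at h1
  -- the Bezout relation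
  obtain ⟨A, B, hAB⟩ := bezF hF hχ
  set β : AdjoinRoot (Fr F) := aeval (AdjoinRoot.root (Fr F)) B with hβ
  have h2 : aeval (AdjoinRoot.root (Fr F)) (derivative (Fr F)) * β =
      algebraMap (RatFunc 𝕜) _ (algebraMap 𝕜[X] (RatFunc 𝕜) (χ.comp (-h))) := by
    have h3 := congrArg (fun q : 𝕜[X][X] => aeval (AdjoinRoot.root (Fr F)) q) hAB
    simp only [map_add, map_mul, aeval_C] at h3
    have h4 : aeval (AdjoinRoot.root (Fr F)) F = 0 := by
      have h1 := AdjoinRoot.eval₂_root (Fr F)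
      rw [eval₂_map] at h1
      exact h1
    rw [h4, zero_mul, add_zero] at h3
    have h5 : aeval (AdjoinRoot.root (Fr F)) (derivative (Fr F)) =
        aeval (AdjoinRoot.root (Fr F)) (derivative F) := by
      rw [derivative_map, aeval_map_algebraMap]
    rw [h5, hβ, ← h3]
    rfl
  have h6 := congrArg (Algebra.norm (RatFunc 𝕜)) h2
  rw [map_mul, Algebra.norm_algebraMap, PowerBasis.finrank pb, AdjoinRoot.powerBasis_dim,
    hdeg] at h6
  have hβi : IsIntegral 𝕜[X] β := by
    rw [hβ]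
    have h7 : Algebra.adjoin 𝕜[X] {AdjoinRoot.root (Fr F)} ≤ integralClosure 𝕜[X] _ := by
      apply Algebra.adjoin_le
      intro y hy
      rw [Set.mem_singleton_iff.1 hy]
      exact hint
    exact h7 (aeval_mem_adjoin_singleton _ _)
  obtain ⟨b, hb⟩ := IsIntegrallyClosed.isIntegral_iff.1 (Algebra.isIntegral_norm (RatFunc 𝕜) hβi)
  -- conclusion
  set e0 : ℕ := Module.finrank (RatFunc 𝕜) (AdjoinRoot (Fr F)) *
    (Module.finrank (RatFunc 𝕜) (AdjoinRoot (Fr F)) - 1) / 2 with he0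
  set u : (RatFunc 𝕜) := (-1) ^ e0 with hu
  have hu2 : u * u = 1 := by
    rw [hu, ← pow_add, ← two_mul, pow_mul, neg_one_sq, one_pow]
  have h8 : (algebraMap 𝕜[X] (AdjoinRoot (Fr F)) (χ.comp (-h))) ^ d * w =
      algebraMap 𝕜[X] (AdjoinRoot (Fr F)) ((-1) ^ e0 * b) *
        ((u * (Algebra.norm (RatFunc 𝕜)) (aeval (AdjoinRoot.root (Fr F)) (derivative (Fr F)))) •
          w) := by
    have h9 : algebraMap 𝕜[X] (AdjoinRoot (Fr F)) (χ.comp (-h)) =
        algebraMap (RatFunc 𝕜) _ (algebraMap 𝕜[X] (RatFunc 𝕜) (χ.comp (-h))) :=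
      IsScalarTower.algebraMap_apply _ _ _ _
    have h10 : algebraMap 𝕜[X] (AdjoinRoot (Fr F)) ((-1) ^ e0 * b) =
        algebraMap (RatFunc 𝕜) _ (u * (Algebra.norm (RatFunc 𝕜)) β) := by
      rw [IsScalarTower.algebraMap_apply 𝕜[X] (RatFunc 𝕜), map_mul, hb, hu]
      simp
    have h11 : ∀ a b : RatFunc 𝕜, u * b * (u * a) = a * b := by
      intro a b
      calc u * b * (u * a) = (u * u) * (a * b) := by ring
        _ = a * b := by rw [hu2, one_mul]
    rw [h9, h10, Algebra.smul_def, ← map_pow, ← h6]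
    generalize (Algebra.norm (RatFunc 𝕜)) β = nb
    generalize (Algebra.norm (RatFunc 𝕜))
      (aeval (AdjoinRoot.root (Fr F)) (derivative (Fr F))) = nF
    rw [← mul_assoc, ← map_mul, h11]
  rw [h8]
  exact Subalgebra.mul_mem _ (Subalgebra.algebraMap_mem _ _) h1

end

end Vale.Agent.P042.WA
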